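import Mathlib

/-!
# P229 annulus module: the algebraic heart of the Bernstein gradient estimate
-/

namespace Vale.Agent.P229.Annulus

lemma abs_mul_le' {a b A B : ℝ} (ha : |a| ≤ A) (hb : |b| ≤ B) : |a * b| ≤ A * B := by
  rw [abs_mul]
  exact mul_le_mul ha hb (abs_nonneg b) ((abs_nonneg a).trans ha)

lemma abs_add3 (a b c : ℝ) : |a + b + c| ≤ |a| + |b| + |c| :=
  (abs_add_le _ _).trans (add_le_add (abs_add_le a b) le_rfl)

lemma abs_add7 (a b c d e f g : ℝ) :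
    |a + b + c + d + e + f + g| ≤ |a| + |b| + |c| + |d| + |e| + |f| + |g| := by
  have h1 := abs_add3 a b c
  have h2 := abs_add3 (a + b + c) d e
  have h3 := abs_add3 (a + b + c + d + e) f g
  linarith

/-- the differentiated equation bounds the principal part of the third derivatives -/
lemma diff_eq_bound {a11x a12x a22x b1x b2x b1 b2 u1 u2 u3 wx wy c1 c2 Lam X g h : ℝ}
    (h11 : |a11x| ≤ Lam) (h12 : |a12x| ≤ Lam) (h22 : |a22x| ≤ Lam) (hb1x : |b1x| ≤ Lam)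
    (hb2x : |b2x| ≤ Lam) (hb1 : |b1| ≤ Lam) (hb2 : |b2| ≤ Lam)
    (hh : |u1| + |u2| + |u3| ≤ h) (hg : |wx| + |wy| ≤ g) (hc : |c1| + |c2| ≤ h)
    (hX : X + (a11x * u1 + 2 * (a12x * u2) + a22x * u3 + b1x * wx + b1 * c1 + b2x * wy
      + b2 * c2) = 0) :
    |X| ≤ Lam * (3 * h + g) := by
  have hL : 0 ≤ Lam := (abs_nonneg _).trans h11
  have e1 := abs_mul_le' h11 (le_refl |u1|)
  have e2 := abs_mul_le' h12 (le_refl |u2|)
  have e3 := abs_mul_le' h22 (le_refl |u3|)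
  have e4 := abs_mul_le' hb1x (le_refl |wx|)
  have e5 := abs_mul_le' hb1 (le_refl |c1|)
  have e6 := abs_mul_le' hb2x (le_refl |wy|)
  have e7 := abs_mul_le' hb2 (le_refl |c2|)
  have hX' : X = -(a11x * u1 + 2 * (a12x * u2) + a22x * u3 + b1x * wx + b1 * c1 + b2x * wy
      + b2 * c2) := by linarith
  rw [hX', abs_neg]
  refine (abs_add7 _ _ _ _ _ _ _).trans ?_
  rw [abs_mul (2:ℝ), abs_two]
  nlinarith [abs_nonneg u1, abs_nonneg u2, abs_nonneg u3]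

lemma gradient_pair_bound {wx wy c1 c2 g h : ℝ} (hx : |wx| ≤ g) (hy : |wy| ≤ g)
    (hc : |c1| + |c2| ≤ h) : |2 * (wx * c1 + wy * c2)| ≤ 2 * (g * h) := by
  have hg : 0 ≤ g := (abs_nonneg _).trans hx
  rw [abs_mul, abs_two]
  refine mul_le_mul_of_nonneg_left ((abs_add_le _ _).trans ?_) (by norm_num)
  have e1 := abs_mul_le' hx (le_refl |c1|)
  have e2 := abs_mul_le' hy (le_refl |c2|)
  have e3 := mul_le_mul_of_nonneg_left hc hg
  linarith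

/-- The remainder of the contracted Hessian. -/
lemma rem_bound {a11 a12 a22 b1 b2 η zx zy zxx zxy zyy G Gx Gy X Y wx wy g h Lam : ℝ}
    (h11 : |a11| ≤ Lam) (h12 : |a12| ≤ Lam) (h22 : |a22| ≤ Lam) (hb1 : |b1| ≤ Lam)
    (hb2 : |b2| ≤ Lam) (hη0 : 0 ≤ η) (hη4 : η ≤ 4) (hzx : |zx| ≤ 16 * η) (hzy : |zy| ≤ 16 * η)
    (hzxx : |zxx| ≤ 416) (hzxy : |zxy| ≤ 416) (hzyy : |zyy| ≤ 416)
    (hG : |G| ≤ g ^ 2) (hGx : |Gx| ≤ 2 * (g * h)) (hGy : |Gy| ≤ 2 * (g * h))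
    (hX : |X| ≤ Lam * (3 * h + g)) (hY : |Y| ≤ Lam * (3 * h + g))
    (hwx : |wx| ≤ g) (hwy : |wy| ≤ g) (hh : 0 ≤ h) :
    -((a11 * zxx + 2 * (a12 * zxy) + a22 * zyy) * G
      + (2 * (a11 * (zx * Gx)) + 2 * (a12 * (zx * Gy + zy * Gx)) + 2 * (a22 * (zy * Gy)))
      + η ^ 2 * (2 * (wx * X + wy * Y))
      + (b1 * (zx * G + η ^ 2 * Gx) + b2 * (zy * G + η ^ 2 * Gy)))
      ≤ 2000 * Lam * (η * (g * h)) + 2000 * Lam * g ^ 2 := by
  have hL : 0 ≤ Lam := (abs_nonneg _).trans h11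
  have hg : 0 ≤ g := (abs_nonneg _).trans hwx
  have r1 : |(a11 * zxx + 2 * (a12 * zxy) + a22 * zyy) * G| ≤ (1664 * Lam) * g ^ 2 := by
    refine abs_mul_le' ((abs_add3 _ _ _).trans ?_) hG
    rw [abs_mul (2:ℝ), abs_two]
    linarith [abs_mul_le' h11 hzxx, abs_mul_le' h12 hzxy, abs_mul_le' h22 hzyy]
  have r2 : |2 * (a11 * (zx * Gx)) + 2 * (a12 * (zx * Gy + zy * Gx)) + 2 * (a22 * (zy * Gy))|
      ≤ 256 * Lam * (η * (g * h)) := by
    refine (abs_add3 _ _ _).trans ?_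
    simp only [abs_mul (2:ℝ), abs_two]
    have hm := (abs_add_le (zx * Gy) (zy * Gx)).trans
      (add_le_add (abs_mul_le' hzx hGy) (abs_mul_le' hzy hGx))
    linarith [abs_mul_le' h11 (abs_mul_le' hzx hGx), abs_mul_le' h12 hm,
      abs_mul_le' h22 (abs_mul_le' hzy hGy)]
  have hη2 : |η ^ 2| ≤ 4 * η := by
    rw [abs_of_nonneg (sq_nonneg η), sq]
    exact mul_le_mul_of_nonneg_right hη4 hη0
  have r3 : |η ^ 2 * (2 * (wx * X + wy * Y))| ≤ (4 * η) * (4 * (g * (Lam * (3 * h + g)))) := by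
    refine abs_mul_le' hη2 ?_
    rw [abs_mul, abs_two]
    linarith [abs_add_le (wx * X) (wy * Y), abs_mul_le' hwx hX, abs_mul_le' hwy hY]
  have r4 : |b1 * (zx * G + η ^ 2 * Gx) + b2 * (zy * G + η ^ 2 * Gy)|
      ≤ 2 * (Lam * (16 * η * g ^ 2 + 4 * η * (2 * (g * h)))) := by
    have e1 := (abs_add_le (zx * G) (η ^ 2 * Gx)).trans
      (add_le_add (abs_mul_le' hzx hG) (abs_mul_le' hη2 hGx))
    have e2 := (abs_add_le (zy * G) (η ^ 2 * Gy)).trans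
      (add_le_add (abs_mul_le' hzy hG) (abs_mul_le' hη2 hGy))
    linarith [abs_add_le (b1 * (zx * G + η ^ 2 * Gx)) (b2 * (zy * G + η ^ 2 * Gy)),
      abs_mul_le' hb1 e1, abs_mul_le' hb2 e2]
  have hηg : Lam * (η * g ^ 2) ≤ Lam * (4 * g ^ 2) :=
    mul_le_mul_of_nonneg_left (mul_le_mul_of_nonneg_right hη4 (sq_nonneg g)) hL
  have hLg : 0 ≤ Lam * (η * (g * h)) := by positivity
  have hLg2 : 0 ≤ Lam * g ^ 2 := by positivity
  have i3 : (4 * η) * (4 * (g * (Lam * (3 * h + g))))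
      = 48 * (Lam * (η * (g * h))) + 16 * (Lam * (η * g ^ 2)) := by ring
  have i4 : 2 * (Lam * (16 * η * g ^ 2 + 4 * η * (2 * (g * h))))
      = 32 * (Lam * (η * g ^ 2)) + 16 * (Lam * (η * (g * h))) := by ring
  linarith [(abs_le.1 r1).1, (abs_le.1 r2).1, (abs_le.1 r3).1, (abs_le.1 r4).1]

/-- Absorption of the remainder. -/
lemma absorb {lam C K η g h G S T R : ℝ} (hl : 0 < lam) (hC : 0 ≤ C)
    (hK : C ^ 2 + C * lam < K * lam ^ 2) (hG : 0 < G) (hg : g ^ 2 ≤ 2 * G)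
    (hS : lam * (η ^ 2 * h ^ 2) ≤ 3 * η ^ 2 * S) (hT : lam * G ≤ T)
    (hR : -R ≤ C * (η * (g * h)) + C * g ^ 2) :
    0 < 2 * η ^ 2 * S + 2 * K * T + R := by
  have hK0 : 0 < K := by
    have : 0 ≤ C ^ 2 + C * lam := by positivity
    exact (mul_pos_iff_of_pos_right (pow_pos hl 2)).1 (lt_of_le_of_lt this hK)
  have hD : C * (η * (g * h)) * lam ≤ 2 / 3 * lam ^ 2 * (η ^ 2 * h ^ 2) + 3 / 8 * C ^ 2 * g ^ 2 := by
    nlinarith [sq_nonneg (4 * lam * (η * h) - 3 * C * g)]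
  have hKG : (C ^ 2 + C * lam) * G < K * lam ^ 2 * G := mul_lt_mul_of_pos_right hK hG
  have h1 : C ^ 2 * g ^ 2 ≤ C ^ 2 * (2 * G) := mul_le_mul_of_nonneg_left hg (sq_nonneg C)
  have h2 : C * lam * g ^ 2 ≤ C * lam * (2 * G) :=
    mul_le_mul_of_nonneg_left hg (by positivity)
  have h3 := mul_le_mul_of_nonneg_left hS hl.le
  have h4 := mul_le_mul_of_nonneg_left hT (mul_nonneg (mul_nonneg zero_le_two hK0.le) hl.le)
  have h5 := mul_le_mul_of_nonneg_left hR hl.le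
  have h6 : 0 ≤ C ^ 2 * G := by positivity
  have h7 : 0 < lam * (2 * η ^ 2 * S + 2 * K * T + R) := by linarith
  exact (mul_pos_iff_of_pos_left hl).1 h7

lemma sq_sum_two (x y : ℝ) :
    |x ^ 2 + y ^ 2| ≤ (|x| + |y|) ^ 2 ∧ (|x| + |y|) ^ 2 ≤ 2 * (x ^ 2 + y ^ 2) := by
  rw [abs_of_nonneg (add_nonneg (sq_nonneg x) (sq_nonneg y)), add_sq, sq_abs, sq_abs]
  have h1 := mul_nonneg (abs_nonneg x) (abs_nonneg y)
  have h2 := two_mul_le_add_sq |x| |y|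
  rw [sq_abs, sq_abs] at h2
  constructor <;> linarith

lemma sq_sum_three (x y z : ℝ) :
    (|x| + |y| + |z|) ^ 2 ≤ 3 * ((x ^ 2 + y ^ 2) + (y ^ 2 + z ^ 2)) := by
  nlinarith [sq_abs x, sq_abs y, sq_abs z, sq_nonneg (|x| - |y|),
    sq_nonneg (|y| - |z|), sq_nonneg (|x| - |z|), sq_nonneg y]

/-- The key pointwise inequality: at a critical point of `η² G + K w²` with `G ≠ 0` the
elliptic operator is strictly positive. -/
lemma core {lam Lam K : ℝ} (hl : 0 < lam) (hL : 1 ≤ Lam)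
    (hK : (2000 * Lam) ^ 2 + (2000 * Lam) * lam < K * lam ^ 2)
    {a11 a12 a22 b1 b2 η zx zy zxx zxy zyy w wx wy wxx wxy wyy wxxx wxxy wxyy wyyy : ℝ}
    {a11x a12x a22x b1x b2x a11y a12y a22y b1y b2y : ℝ}
    (h11 : |a11| ≤ Lam) (h12 : |a12| ≤ Lam) (h22 : |a22| ≤ Lam) (hb1 : |b1| ≤ Lam)
    (hb2 : |b2| ≤ Lam)
    (h11x : |a11x| ≤ Lam) (h12x : |a12x| ≤ Lam) (h22x : |a22x| ≤ Lam) (hb1x : |b1x| ≤ Lam)
    (hb2x : |b2x| ≤ Lam)
    (h11y : |a11y| ≤ Lam) (h12y : |a12y| ≤ Lam) (h22y : |a22y| ≤ Lam) (hb1y : |b1y| ≤ Lam)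
    (hb2y : |b2y| ≤ Lam)
    (hell : ∀ v1 v2 : ℝ, lam * (v1 ^ 2 + v2 ^ 2) ≤ a11 * v1 ^ 2 + 2 * a12 * v1 * v2 + a22 * v2 ^ 2)
    (hη0 : 0 ≤ η) (hη4 : η ≤ 4) (hzx : |zx| ≤ 16 * η) (hzy : |zy| ≤ 16 * η)
    (hzxx : |zxx| ≤ 416) (hzxy : |zxy| ≤ 416) (hzyy : |zyy| ≤ 416)
    (heq : a11 * wxx + 2 * a12 * wxy + a22 * wyy + b1 * wx + b2 * wy = 0)
    (hX : a11 * wxxx + 2 * a12 * wxxy + a22 * wxyy + (a11x * wxx + 2 * (a12x * wxy)
      + a22x * wyy + b1x * wx + b1 * wxx + b2x * wy + b2 * wxy) = 0)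
    (hY : a11 * wxxy + 2 * a12 * wxyy + a22 * wyyy + (a11y * wxx + 2 * (a12y * wxy)
      + a22y * wyy + b1y * wx + b1 * wxy + b2y * wy + b2 * wyy) = 0)
    (hφx : zx * (wx ^ 2 + wy ^ 2) + η ^ 2 * (2 * (wx * wxx + wy * wxy)) + 2 * K * (w * wx) = 0)
    (hφy : zy * (wx ^ 2 + wy ^ 2) + η ^ 2 * (2 * (wx * wxy + wy * wyy)) + 2 * K * (w * wy) = 0)
    (hG : 0 < wx ^ 2 + wy ^ 2) :
    0 < a11 * (zxx * (wx ^ 2 + wy ^ 2) + 2 * zx * (2 * (wx * wxx + wy * wxy))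
          + η ^ 2 * (2 * (wxx ^ 2 + wx * wxxx + wxy ^ 2 + wy * wxxy))
          + 2 * K * (wx ^ 2 + w * wxx))
      + 2 * a12 * (zxy * (wx ^ 2 + wy ^ 2) + zx * (2 * (wx * wxy + wy * wyy))
          + zy * (2 * (wx * wxx + wy * wxy))
          + η ^ 2 * (2 * (wxy * wxx + wx * wxxy + wyy * wxy + wy * wxyy))
          + 2 * K * (wy * wx + w * wxy))
      + a22 * (zyy * (wx ^ 2 + wy ^ 2) + 2 * zy * (2 * (wx * wxy + wy * wyy))
          + η ^ 2 * (2 * (wxy ^ 2 + wx * wxyy + wyy ^ 2 + wy * wyyy))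
          + 2 * K * (wy ^ 2 + w * wyy)) := by
  have hwx : |wx| ≤ |wx| + |wy| := le_add_of_nonneg_right (abs_nonneg wy)
  have hwy : |wy| ≤ |wx| + |wy| := le_add_of_nonneg_left (abs_nonneg wx)
  obtain ⟨hGg, hg2⟩ := sq_sum_two wx wy
  have hXb := diff_eq_bound h11x h12x h22x hb1x hb2x hb1 hb2
    (le_refl (|wxx| + |wxy| + |wyy|)) (le_refl (|wx| + |wy|))
    (le_add_of_nonneg_right (abs_nonneg wyy)) hX
  have hYb := diff_eq_bound h11y h12y h22y hb1y hb2y hb1 hb2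
    (le_refl (|wxx| + |wxy| + |wyy|)) (le_refl (|wx| + |wy|))
    (by linarith [abs_nonneg wxx]) hY
  have hGxb := gradient_pair_bound (c1 := wxx) (c2 := wxy) hwx hwy
    (le_add_of_nonneg_right (abs_nonneg wyy))
  have hGyb := gradient_pair_bound (c1 := wxy) (c2 := wyy) (h := |wxx| + |wxy| + |wyy|) hwx hwy
    (by linarith [abs_nonneg wxx])
  have hRb := rem_bound h11 h12 h22 hb1 hb2 hη0 hη4 hzx hzy hzxx hzxy hzyy hGg hGxb hGyb hXb hYb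
    hwx hwy (by positivity)
  have hh3 := sq_sum_three wxx wxy wyy
  have hS : lam * (η ^ 2 * (|wxx| + |wxy| + |wyy|) ^ 2) ≤ 3 * η ^ 2 *
      ((a11 * wxx ^ 2 + 2 * a12 * wxx * wxy + a22 * wxy ^ 2)
        + (a11 * wxy ^ 2 + 2 * a12 * wxy * wyy + a22 * wyy ^ 2)) := by
    have h1 := mul_le_mul_of_nonneg_left hh3 (mul_nonneg hl.le (sq_nonneg η))
    have h2 := mul_le_mul_of_nonneg_left (add_le_add (hell wxx wxy) (hell wxy wyy))
      (by positivity : (0:ℝ) ≤ 3 * η ^ 2)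
    linarith
  have h := absorb (K := K) hl (by linarith : (0:ℝ) ≤ 2000 * Lam) hK hG hg2 hS (hell wx wy) hRb
  refine lt_of_lt_of_eq h ?_
  linear_combination (-(2 * K * w)) * heq + b1 * hφx + b2 * hφy

end Vale.Agent.P229.Annulus
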