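import Vale.Agent.P229.Annulus.Calc
import Vale.Agent.P229.Annulus.Core

/-!
# P229 annulus module: interior gradient bound for elliptic equations on an annulus

If `A : D²w + b · Dw = 0` on `a < |p|² < b` with `A ≥ lam > 0` and coefficients bounded in `C¹`,
then `(|p|² - a)(b - |p|²) |Dw| ≤ C sup |w|` (maximum principle for `η² |Dw|² + K w²`).
-/

open Filter Topology

namespace Vale.Agent.P229.Annulus

/-- A coefficient that is differentiable and bounded by `Lam` together with its gradient. -/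
def Tame (Lam : ℝ) (f : Pl → ℝ) (p : Pl) : Prop :=
  DifferentiableAt ℝ f p ∧ |f p| ≤ Lam ∧ |dd ex f p| ≤ Lam ∧ |dd ey f p| ≤ Lam

/-- `w` solves a uniformly elliptic equation without zero order term on `O`. -/
def SolvesOn (lam Lam : ℝ) (w : Pl → ℝ) (O : Set Pl) : Prop :=
  ∃ a11 a12 a22 b1 b2 : Pl → ℝ, ∀ p ∈ O,
    Tame Lam a11 p ∧ Tame Lam a12 p ∧ Tame Lam a22 p ∧ Tame Lam b1 p ∧ Tame Lam b2 p ∧
    (∀ v1 v2 : ℝ, lam * (v1 ^ 2 + v2 ^ 2)
      ≤ a11 p * v1 ^ 2 + 2 * a12 p * v1 * v2 + a22 p * v2 ^ 2) ∧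
    a11 p * dd ex (dd ex w) p + 2 * a12 p * dd ey (dd ex w) p + a22 p * dd ey (dd ey w) p
      + b1 p * dd ex w p + b2 p * dd ey w p = 0

lemma SolvesOn.mono {lam Lam : ℝ} {w : Pl → ℝ} {O O' : Set Pl} (h : SolvesOn lam Lam w O)
    (hO : O' ⊆ O) : SolvesOn lam Lam w O' := by
  obtain ⟨a11, a12, a22, b1, b2, h⟩ := h
  exact ⟨a11, a12, a22, b1, b2, fun p hp => h p (hO hp)⟩

/-- the open annulus in the squared radius -/
def oann (a b : ℝ) : Set Pl := {p | a < rsq p ∧ rsq p < b}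

/-- the closed annulus in the squared radius -/
def ann (a b : ℝ) : Set Pl := {p | a ≤ rsq p ∧ rsq p ≤ b}

lemma contDiff_rsq {n : ℕ∞} : ContDiff ℝ n rsq := by
  show ContDiff ℝ n (fun p : Pl => p.1 ^ 2 + p.2 ^ 2)
  fun_prop

lemma continuous_rsq : Continuous rsq := by
  show Continuous (fun p : Pl => p.1 ^ 2 + p.2 ^ 2)
  fun_prop

lemma dd_rsq (u p : Pl) : dd u rsq p = 2 * (p.1 * u.1 + p.2 * u.2) := by
  have h : HasFDerivAt rsq _ p :=
    ((hasFDerivAt_fst (𝕜 := ℝ) (E := ℝ) (F := ℝ) (p := p)).pow 2).add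
      ((hasFDerivAt_snd (𝕜 := ℝ) (E := ℝ) (F := ℝ) (p := p)).pow 2)
  simp only [dd, h.fderiv]
  simp
  ring

lemma dd_dd_rsq (v u p : Pl) : dd v (dd u rsq) p = 2 * (v.1 * u.1 + v.2 * u.2) := by
  have e : dd u rsq = fun p : Pl => 2 * (p.1 * u.1 + p.2 * u.2) := funext fun p => dd_rsq u p
  rw [e]
  have h : HasFDerivAt (fun p : Pl => 2 * (p.1 * u.1 + p.2 * u.2)) _ p :=
    (((hasFDerivAt_fst (𝕜 := ℝ) (E := ℝ) (F := ℝ) (p := p)).mul_const u.1).add
      ((hasFDerivAt_snd (𝕜 := ℝ) (E := ℝ) (F := ℝ) (p := p)).mul_const u.2)).const_mul 2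
  simp only [dd, h.fderiv]
  simp
  ring

/-- the cutoff -/
def cut (a b : ℝ) (p : Pl) : ℝ := (rsq p - a) * (b - rsq p)

lemma contDiff_cut {n : ℕ∞} (a b : ℝ) : ContDiff ℝ n (cut a b) :=
  (contDiff_rsq.sub contDiff_const).mul (contDiff_const.sub contDiff_rsq)

lemma dd_cut (a b : ℝ) (u p : Pl) : dd u (cut a b) p = dd u rsq p * (a + b - 2 * rsq p) := by
  have hd : DifferentiableAt ℝ rsq p := (contDiff_rsq (n := 1)).differentiable one_ne_zero p
  show dd u (fun q => (rsq q - a) * (b - rsq q)) p = _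
  rw [dd_mul (hd.sub_const a) (hd.const_sub b)]
  simp only [dd, fderiv_sub_const, fderiv_const_sub, neg_apply]
  ring

lemma dd_dd_cut (a b : ℝ) (v u p : Pl) : dd v (dd u (cut a b)) p
    = dd v (dd u rsq) p * (a + b - 2 * rsq p) - 2 * (dd u rsq p * dd v rsq p) := by
  have e : dd u (cut a b) = fun p => dd u rsq p * (a + b - 2 * rsq p) :=
    funext fun p => dd_cut a b u p
  rw [e]
  have hd : DifferentiableAt ℝ rsq p := (contDiff_rsq (n := 1)).differentiable one_ne_zero p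
  have hdu : DifferentiableAt ℝ (dd u rsq) p :=
    (dd_contDiff (n := 1) (contDiff_rsq (n := (2 : ℕ))) u).differentiable (by norm_num) p
  rw [dd_mul hdu ((hd.const_mul 2).const_sub _)]
  simp only [dd, fderiv_const_sub, neg_apply]
  rw [fderiv_const_mul hd]
  simp
  ring

/-- the squared cutoff -/
def zcut (a b : ℝ) (p : Pl) : ℝ := cut a b p * cut a b p

lemma dd_zcut (a b : ℝ) (u p : Pl) :
    dd u (zcut a b) p = 2 * (cut a b p * dd u (cut a b) p) := by
  have hd : DifferentiableAt ℝ (cut a b) p :=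
    (contDiff_cut (n := 1) a b).differentiable one_ne_zero p
  show dd u (fun q => cut a b q * cut a b q) p = _
  rw [dd_mul hd hd]
  ring

lemma dd_dd_zcut (a b : ℝ) (v u p : Pl) : dd v (dd u (zcut a b)) p
    = 2 * (dd v (cut a b) p * dd u (cut a b) p + cut a b p * dd v (dd u (cut a b)) p) := by
  have e : dd u (zcut a b) = fun p => 2 * (cut a b p * dd u (cut a b) p) :=
    funext fun p => dd_zcut a b u p
  rw [e]
  have hd : DifferentiableAt ℝ (cut a b) p :=
    (contDiff_cut (n := 1) a b).differentiable one_ne_zero p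
  have hdu : DifferentiableAt ℝ (dd u (cut a b)) p :=
    (dd_contDiff (n := 1) (contDiff_cut (n := (2 : ℕ)) a b) u).differentiable (by norm_num) p
  have hm : DifferentiableAt ℝ (fun q => cut a b q * dd u (cut a b) q) p := hd.mul hdu
  rw [dd_const_mul hm, dd_mul hd hdu]

lemma cut_bounds {a b : ℝ} {p : Pl} (ha : 1 ≤ a) (hb : b ≤ 3) (hp : p ∈ ann a b) :
    0 ≤ cut a b p ∧ cut a b p ≤ 4 ∧
    (∀ u : Pl, u = ex ∨ u = ey → |dd u (zcut a b) p| ≤ 16 * cut a b p) ∧
    (∀ u v : Pl, u = ex ∨ u = ey → v = ex ∨ v = ey → |dd v (dd u (zcut a b)) p| ≤ 416) := by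
  obtain ⟨h1, h2⟩ := hp
  have hc0 : 0 ≤ cut a b p := mul_nonneg (by linarith) (by linarith)
  have hc4 : cut a b p ≤ 4 := by
    have h := mul_le_mul (show rsq p - a ≤ 2 by linarith) (show b - rsq p ≤ 2 by linarith)
      (by linarith) zero_le_two
    show (rsq p - a) * (b - rsq p) ≤ 4
    linarith
  have hr : ∀ u : Pl, u = ex ∨ u = ey → |dd u rsq p| ≤ 4 := by
    intro u hu
    have hq : p.1 ^ 2 + p.2 ^ 2 ≤ 3 := le_trans h2 hb
    rw [dd_rsq, abs_mul, abs_two]
    rcases hu with rfl | rfl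
    · have : |p.1| ≤ 2 := abs_le.2 ⟨by nlinarith [sq_nonneg p.2], by nlinarith [sq_nonneg p.2]⟩
      simp only [ex, mul_one, mul_zero, add_zero]
      linarith
    · have : |p.2| ≤ 2 := abs_le.2 ⟨by nlinarith [sq_nonneg p.1], by nlinarith [sq_nonneg p.1]⟩
      simp only [ey, mul_one, mul_zero, zero_add]
      linarith
  have hab : |a + b - 2 * rsq p| ≤ 2 := abs_le.2 ⟨by linarith, by linarith⟩
  have hcu : ∀ u : Pl, u = ex ∨ u = ey → |dd u (cut a b) p| ≤ 8 := by
    intro u hu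
    rw [dd_cut]
    linarith [abs_mul_le' (hr u hu) hab]
  refine ⟨hc0, hc4, fun u hu => ?_, fun u v hu hv => ?_⟩
  · rw [dd_zcut, abs_mul, abs_two]
    linarith [abs_mul_le' (abs_of_nonneg hc0).le (hcu u hu)]
  · have hrr : |dd v (dd u rsq) p| ≤ 2 := by
      rw [dd_dd_rsq]
      rcases hu with rfl | rfl <;> rcases hv with rfl | rfl <;> norm_num [ex, ey]
    have hcc : |dd v (dd u (cut a b)) p| ≤ 36 := by
      rw [dd_dd_cut]
      refine (abs_sub _ _).trans ?_
      rw [abs_mul (2 : ℝ), abs_two]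
      linarith [abs_mul_le' hrr hab, abs_mul_le' (hr u hu) (hr v hv)]
    rw [dd_dd_zcut, abs_mul, abs_two]
    refine le_trans (mul_le_mul_of_nonneg_left (abs_add_le _ _) zero_le_two) ?_
    linarith [abs_mul_le' (hcu v hv) (hcu u hu),
      abs_mul_le' ((abs_of_nonneg hc0).le.trans hc4) hcc]

/-- squared length of the gradient -/
noncomputable def grad2 (w : Pl → ℝ) (p : Pl) : ℝ :=
  dd ex w p * dd ex w p + dd ey w p * dd ey w p

/-- the Bernstein function -/
noncomputable def bern (a b K : ℝ) (w : Pl → ℝ) (p : Pl) : ℝ :=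
  zcut a b p * grad2 w p + K * (w p * w p)

section derivs

variable {w : Pl → ℝ} (hw : ContDiff ℝ (3 : ℕ) w)
include hw

lemma dd_grad2 (u p : Pl) : dd u (grad2 w) p
    = 2 * (dd ex w p * dd u (dd ex w) p + dd ey w p * dd u (dd ey w) p) := by
  have hd : ∀ z : Pl, Differentiable ℝ (dd z w) := fun z =>
    (dd_contDiff (n := 2) hw z).differentiable (by norm_num)
  have hm : ∀ z : Pl, DifferentiableAt ℝ (fun q => dd z w q * dd z w q) p :=
    fun z => (hd z p).mul (hd z p)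
  show dd u (fun q => dd ex w q * dd ex w q + dd ey w q * dd ey w q) p = _
  rw [dd_add (hm ex) (hm ey), dd_mul (hd ex p) (hd ex p), dd_mul (hd ey p) (hd ey p)]
  ring

lemma dd_dd_grad2 (v u p : Pl) : dd v (dd u (grad2 w)) p
    = 2 * (dd v (dd ex w) p * dd u (dd ex w) p + dd ex w p * dd v (dd u (dd ex w)) p
      + dd v (dd ey w) p * dd u (dd ey w) p + dd ey w p * dd v (dd u (dd ey w)) p) := by
  have e : dd u (grad2 w) = fun p =>
      2 * (dd ex w p * dd u (dd ex w) p + dd ey w p * dd u (dd ey w) p) :=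
    funext fun p => dd_grad2 hw u p
  rw [e]
  have hd : ∀ z : Pl, DifferentiableAt ℝ (dd z w) p := fun z =>
    (dd_contDiff (n := 2) hw z).differentiable (by norm_num) p
  have hdd : ∀ z : Pl, DifferentiableAt ℝ (dd u (dd z w)) p := fun z =>
    (dd_contDiff (n := 1) (dd_contDiff (n := 2) hw z) u).differentiable (by norm_num) p
  have hm : ∀ z : Pl, DifferentiableAt ℝ (fun q => dd z w q * dd u (dd z w) q) p :=
    fun z => (hd z).mul (hdd z)
  have hma : DifferentiableAt ℝ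
      (fun q => dd ex w q * dd u (dd ex w) q + dd ey w q * dd u (dd ey w) q) p :=
    (hm ex).add (hm ey)
  rw [dd_const_mul hma, dd_add (hm ex) (hm ey), dd_mul (hd ex) (hdd ex),
    dd_mul (hd ey) (hdd ey)]
  ring

lemma contDiff_bern (a b K : ℝ) : ContDiff ℝ (2 : ℕ) (bern a b K w) := by
  have hz : ∀ z : Pl, ContDiff ℝ (2 : ℕ) (dd z w) := fun z => dd_contDiff hw z
  have h2 : ContDiff ℝ (2 : ℕ) w := hw.of_le (by norm_num)
  show ContDiff ℝ (2 : ℕ) (fun p => cut a b p * cut a b p *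
    (dd ex w p * dd ex w p + dd ey w p * dd ey w p) + K * (w p * w p))
  exact (((contDiff_cut a b).mul (contDiff_cut a b)).mul
    (((hz ex).mul (hz ex)).add ((hz ey).mul (hz ey)))).add (contDiff_const.mul (h2.mul h2))

lemma dd_bern (a b K : ℝ) (u p : Pl) : dd u (bern a b K w) p
    = dd u (zcut a b) p * grad2 w p + zcut a b p * dd u (grad2 w) p
      + 2 * K * (w p * dd u w p) := by
  have hd : DifferentiableAt ℝ w p := hw.differentiable (by norm_num) p
  have hz : DifferentiableAt ℝ (zcut a b) p :=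
    ((contDiff_cut (n := 1) a b).mul (contDiff_cut a b)).differentiable one_ne_zero p
  have hdd : ∀ z : Pl, DifferentiableAt ℝ (dd z w) p := fun z =>
    (dd_contDiff (n := 2) hw z).differentiable (by norm_num) p
  have hg : DifferentiableAt ℝ (grad2 w) p :=
    ((hdd ex).mul (hdd ex)).add ((hdd ey).mul (hdd ey))
  have h1 : DifferentiableAt ℝ (fun q => zcut a b q * grad2 w q) p := hz.mul hg
  have h2 : DifferentiableAt ℝ (fun q => w q * w q) p := hd.mul hd
  have h3 : DifferentiableAt ℝ (fun q => K * (w q * w q)) p := h2.const_mul K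
  show dd u (fun q => zcut a b q * grad2 w q + K * (w q * w q)) p = _
  rw [dd_add h1 h3, dd_mul hz hg, dd_const_mul h2, dd_mul hd hd]
  ring

lemma dd_dd_bern (a b K : ℝ) (v u p : Pl) : dd v (dd u (bern a b K w)) p
    = dd v (dd u (zcut a b)) p * grad2 w p + dd u (zcut a b) p * dd v (grad2 w) p
      + dd v (zcut a b) p * dd u (grad2 w) p + zcut a b p * dd v (dd u (grad2 w)) p
      + 2 * K * (dd v w p * dd u w p + w p * dd v (dd u w) p) := by
  have e : dd u (bern a b K w) = fun p =>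
      dd u (zcut a b) p * grad2 w p + zcut a b p * dd u (grad2 w) p
        + 2 * K * (w p * dd u w p) :=
    funext fun p => dd_bern hw a b K u p
  rw [e]
  have hd : DifferentiableAt ℝ w p := hw.differentiable (by norm_num) p
  have hz2 : ContDiff ℝ (2 : ℕ) (zcut a b) := (contDiff_cut a b).mul (contDiff_cut a b)
  have hz : DifferentiableAt ℝ (zcut a b) p := hz2.differentiable (by norm_num) p
  have hzu : DifferentiableAt ℝ (dd u (zcut a b)) p :=
    (dd_contDiff (n := 1) hz2 u).differentiable (by norm_num) p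
  have hg2 : ContDiff ℝ (2 : ℕ) (grad2 w) :=
    ((dd_contDiff hw ex).mul (dd_contDiff hw ex)).add ((dd_contDiff hw ey).mul (dd_contDiff hw ey))
  have hg : DifferentiableAt ℝ (grad2 w) p := hg2.differentiable (by norm_num) p
  have hgu : DifferentiableAt ℝ (dd u (grad2 w)) p :=
    (dd_contDiff (n := 1) hg2 u).differentiable (by norm_num) p
  have hu : DifferentiableAt ℝ (dd u w) p :=
    (dd_contDiff (n := 2) hw u).differentiable (by norm_num) p
  have h1 : DifferentiableAt ℝ (fun q => dd u (zcut a b) q * grad2 w q) p := hzu.mul hg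
  have h2 : DifferentiableAt ℝ (fun q => zcut a b q * dd u (grad2 w) q) p := hz.mul hgu
  have h3 : DifferentiableAt ℝ (fun q => w q * dd u w q) p := hd.mul hu
  have h4 : DifferentiableAt ℝ (fun q => 2 * K * (w q * dd u w q)) p := h3.const_mul _
  have h12 : DifferentiableAt ℝ
      (fun q => dd u (zcut a b) q * grad2 w q + zcut a b q * dd u (grad2 w) q) p := h1.add h2
  rw [dd_add h12 h4, dd_add h1 h2, dd_mul hzu hg, dd_mul hz hgu, dd_const_mul h3, dd_mul hd hu]
  ring

end derivs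

/-- derivative of the equation -/
lemma dd_equation {w a11 a12 a22 b1 b2 : Pl → ℝ} (hw : ContDiff ℝ (3 : ℕ) w) {p : Pl}
    (h11 : DifferentiableAt ℝ a11 p) (h12 : DifferentiableAt ℝ a12 p)
    (h22 : DifferentiableAt ℝ a22 p) (hb1 : DifferentiableAt ℝ b1 p)
    (hb2 : DifferentiableAt ℝ b2 p)
    (heq : ∀ᶠ q in 𝓝 p, a11 q * dd ex (dd ex w) q + 2 * a12 q * dd ey (dd ex w) q
      + a22 q * dd ey (dd ey w) q + b1 q * dd ex w q + b2 q * dd ey w q = 0) (u : Pl) :
    a11 p * dd u (dd ex (dd ex w)) p + 2 * a12 p * dd u (dd ey (dd ex w)) p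
      + a22 p * dd u (dd ey (dd ey w)) p
      + (dd u a11 p * dd ex (dd ex w) p + 2 * (dd u a12 p * dd ey (dd ex w) p)
      + dd u a22 p * dd ey (dd ey w) p + dd u b1 p * dd ex w p + b1 p * dd u (dd ex w) p
      + dd u b2 p * dd ey w p + b2 p * dd u (dd ey w) p) = 0 := by
  have hd1 : ∀ z : Pl, DifferentiableAt ℝ (dd z w) p := fun z =>
    (dd_contDiff (n := 2) hw z).differentiable (by norm_num) p
  have hd2 : ∀ z y : Pl, DifferentiableAt ℝ (dd z (dd y w)) p := fun z y =>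
    (dd_contDiff (n := 1) (dd_contDiff (n := 2) hw y) z).differentiable (by norm_num) p
  have t1 : DifferentiableAt ℝ (fun q => a11 q * dd ex (dd ex w) q) p := h11.mul (hd2 ex ex)
  have t12 : DifferentiableAt ℝ (fun q => 2 * a12 q) p := h12.const_mul 2
  have t2 : DifferentiableAt ℝ (fun q => 2 * a12 q * dd ey (dd ex w) q) p := t12.mul (hd2 ey ex)
  have t3 : DifferentiableAt ℝ (fun q => a22 q * dd ey (dd ey w) q) p := h22.mul (hd2 ey ey)
  have t4 : DifferentiableAt ℝ (fun q => b1 q * dd ex w q) p := hb1.mul (hd1 ex)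
  have t5 : DifferentiableAt ℝ (fun q => b2 q * dd ey w q) p := hb2.mul (hd1 ey)
  have s12 : DifferentiableAt ℝ
      (fun q => a11 q * dd ex (dd ex w) q + 2 * a12 q * dd ey (dd ex w) q) p := t1.add t2
  have s123 : DifferentiableAt ℝ (fun q => a11 q * dd ex (dd ex w) q
      + 2 * a12 q * dd ey (dd ex w) q + a22 q * dd ey (dd ey w) q) p := s12.add t3
  have s1234 : DifferentiableAt ℝ (fun q => a11 q * dd ex (dd ex w) q
      + 2 * a12 q * dd ey (dd ex w) q + a22 q * dd ey (dd ey w) q + b1 q * dd ex w q) p :=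
    s123.add t4
  have h := dd_congr (g := fun _ => (0 : ℝ)) heq u
  rw [dd_const, dd_add s1234 t5, dd_add s123 t4, dd_add s12 t3, dd_add t1 t2,
    dd_mul h11 (hd2 ex ex), dd_mul t12 (hd2 ey ex), dd_mul h22 (hd2 ey ey),
    dd_mul hb1 (hd1 ex), dd_mul hb2 (hd1 ey), dd_const_mul h12] at h
  linarith

lemma no_interior_max {lam Lam K a b : ℝ} (hl : 0 < lam) (hL : 1 ≤ Lam)
    (hK : (2000 * Lam) ^ 2 + (2000 * Lam) * lam < K * lam ^ 2) (ha : 1 ≤ a) (hb : b ≤ 3)
    {w : Pl → ℝ} (hw : ContDiff ℝ (3 : ℕ) w) (hs : SolvesOn lam Lam w (oann a b))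
    {p : Pl} (hp : p ∈ oann a b) (hmax : IsLocalMax (bern a b K w) p) : grad2 w p = 0 := by
  by_contra hne
  have hG : 0 < dd ex w p ^ 2 + dd ey w p ^ 2 := by
    have : 0 ≤ grad2 w p := add_nonneg (mul_self_nonneg _) (mul_self_nonneg _)
    have h2 := lt_of_le_of_ne this (Ne.symm hne)
    simp only [grad2] at h2
    linarith
  obtain ⟨a11, a12, a22, b1, b2, hs⟩ := hs
  have hopen : IsOpen (oann a b) :=
    (isOpen_lt continuous_const continuous_rsq).inter (isOpen_lt continuous_rsq continuous_const)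
  obtain ⟨⟨d11, B11, B11x, B11y⟩, ⟨d12, B12, B12x, B12y⟩, ⟨d22, B22, B22x, B22y⟩,
    ⟨db1, Bb1, Bb1x, Bb1y⟩, ⟨db2, Bb2, Bb2x, Bb2y⟩, hell, heq⟩ := hs p hp
  have hev := Filter.eventually_of_mem (hopen.mem_nhds hp) fun q hq => (hs q hq).2.2.2.2.2.2
  have hX := dd_equation hw d11 d12 d22 db1 db2 hev ex
  have hY := dd_equation hw d11 d12 d22 db1 db2 hev ey
  have hw2 : ContDiff ℝ 2 w := hw.of_le (by norm_num)
  have c0 : dd ex (dd ey w) = dd ey (dd ex w) := funext fun q => dd_comm hw2 ex ey q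
  have hwx : ContDiff ℝ 2 (dd ex w) := dd_contDiff (n := 2) hw ex
  have hwy : ContDiff ℝ 2 (dd ey w) := dd_contDiff (n := 2) hw ey
  have c1 : dd ex (dd ey (dd ex w)) p = dd ey (dd ex (dd ex w)) p := dd_comm hwx ex ey p
  have c2 : dd ex (dd ey (dd ey w)) p = dd ey (dd ey (dd ex w)) p := by
    rw [dd_comm hwy ex ey p, c0]
  obtain ⟨hη0, hη4, hz1, hz2⟩ := cut_bounds ha hb (show p ∈ ann a b from ⟨hp.1.le, hp.2.le⟩)
  have hbern2 : ContDiff ℝ 2 (bern a b K w) := by
    exact_mod_cast contDiff_bern hw a b K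
  have f1 : dd ex (bern a b K w) p = 0 := by simp [dd, hmax.fderiv_eq_zero]
  have f2 : dd ey (bern a b K w) p = 0 := by simp [dd, hmax.fderiv_eq_zero]
  have h1 := hell 1 0
  have ha11 : 0 < a11 p := by linarith only [h1, hl]
  have hdet : 0 ≤ a11 p * a22 p - a12 p ^ 2 := by
    have hv := hell (a12 p) (-a11 p)
    have e : a11 p * a12 p ^ 2 + 2 * a12 p * a12 p * (-a11 p) + a22 p * (-a11 p) ^ 2
        = a11 p * (a11 p * a22 p - a12 p ^ 2) := by ring
    rw [e] at hv
    have hv0 : 0 ≤ lam * (a12 p ^ 2 + (-a11 p) ^ 2) :=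
      mul_nonneg hl.le (add_nonneg (sq_nonneg _) (sq_nonneg _))
    exact nonneg_of_mul_nonneg_right (hv0.trans hv) ha11
  have hcon := contraction_nonpos hbern2 hmax ha11 hdet
  simp only [c1, c2, c0] at hX hY
  simp only [dd_bern hw, dd_dd_bern hw, dd_dd_grad2 hw, dd_grad2 hw, c0, c1, zcut, grad2] at f1 f2 hcon
  have key := core (K := K) (w := w p) (η := cut a b p) hl hL hK B11 B12 B22 Bb1 Bb2 B11x B12x
    B22x Bb1x Bb2x B11y B12y B22y Bb1y Bb2y hell hη0 hη4 (hz1 ex (.inl rfl)) (hz1 ey (.inr rfl))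
    (hz2 ex ex (.inl rfl) (.inl rfl)) (hz2 ex ey (.inl rfl) (.inr rfl))
    (hz2 ey ey (.inr rfl) (.inr rfl)) heq hX hY ?_ ?_ hG
  · unfold zcut at key hcon
    linarith
  · unfold zcut at f1 ⊢
    linarith
  · unfold zcut at f2 ⊢
    linarith

lemma isCompact_ann (a b : ℝ) : IsCompact (ann a b) := by
  refine (isCompact_closedBall (0 : Pl) (|b| + 1)).of_isClosed_subset ?_ ?_
  · exact (isClosed_le continuous_const continuous_rsq).inter
      (isClosed_le continuous_rsq continuous_const)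
  · rintro p ⟨-, hp⟩
    simp only [rsq] at hp
    rw [Metric.mem_closedBall, dist_zero_right, Prod.norm_def, max_le_iff, Real.norm_eq_abs,
      Real.norm_eq_abs]
    constructor <;> nlinarith [sq_abs p.1, sq_abs p.2, le_abs_self b, abs_nonneg b,
      sq_nonneg (|p.1| - 1), sq_nonneg (|p.2| - 1)]

/-- Interior gradient bound. -/
theorem grad_bound {lam Lam : ℝ} (hl : 0 < lam) (hL : 1 ≤ Lam) :
    ∃ C : ℝ, 0 < C ∧ ∀ (w : Pl → ℝ) (a b S : ℝ), 1 ≤ a → b ≤ 3 → ContDiff ℝ (3 : ℕ) w →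
      SolvesOn lam Lam w (oann a b) → (∀ p ∈ ann a b, |w p| ≤ S) →
      ∀ p ∈ ann a b, cut a b p * (|dd ex w p| + |dd ey w p|) ≤ C * S := by
  set K : ℝ := ((2000 * Lam) ^ 2 + (2000 * Lam) * lam) / lam ^ 2 + 1 with hKdef
  have hK1 : 1 ≤ K := by
    rw [hKdef]
    have : 0 ≤ ((2000 * Lam) ^ 2 + (2000 * Lam) * lam) / lam ^ 2 := by positivity
    linarith
  have hK : (2000 * Lam) ^ 2 + (2000 * Lam) * lam < K * lam ^ 2 := by
    rw [hKdef, add_mul, div_mul_cancel₀ _ (by positivity : lam ^ 2 ≠ 0)]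
    nlinarith
  refine ⟨2 * K, by linarith, fun w a b S ha hb hw hs hS p hp => ?_⟩
  obtain ⟨x, hx, hmax⟩ := (isCompact_ann a b).exists_isMaxOn ⟨p, hp⟩
    (contDiff_bern hw a b K).continuous.continuousOn
  have hxK : bern a b K w x ≤ K * S ^ 2 := by
    have hwS : w x * w x ≤ S ^ 2 := by
      rw [← abs_mul_abs_self (w x), sq]
      exact mul_self_le_mul_self (abs_nonneg _) (hS x hx)
    have hz : zcut a b x * grad2 w x = 0 := by
      rcases eq_or_lt_of_le hx.1 with h1 | h1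
      · simp [zcut, cut, ← h1]
      rcases eq_or_lt_of_le hx.2 with h2 | h2
      · simp [zcut, cut, h2]
      have hopen : IsOpen (oann a b) :=
        (isOpen_lt continuous_const continuous_rsq).inter
          (isOpen_lt continuous_rsq continuous_const)
      have hloc : IsLocalMax (bern a b K w) x :=
        hmax.isLocalMax (mem_of_superset (hopen.mem_nhds ⟨h1, h2⟩) fun q hq => ⟨hq.1.le, hq.2.le⟩)
      rw [no_interior_max hl hL hK ha hb hw hs ⟨h1, h2⟩ hloc, mul_zero]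
    simp only [bern]
    rw [hz, zero_add]
    exact mul_le_mul_of_nonneg_left hwS (by linarith)
  have hp2 : bern a b K w p ≤ K * S ^ 2 := le_trans (hmax hp) hxK
  have hS0 : 0 ≤ S := (abs_nonneg _).trans (hS p hp)
  have hc := (cut_bounds ha hb hp).1
  simp only [bern, zcut, grad2] at hp2
  have hsq : (cut a b p * (|dd ex w p| + |dd ey w p|)) ^ 2 ≤ (2 * K * S) ^ 2 := by
    have h2 : (|dd ex w p| + |dd ey w p|) ^ 2
        ≤ 2 * (dd ex w p ^ 2 + dd ey w p ^ 2) := (sq_sum_two _ _).2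
    have h3 := mul_le_mul_of_nonneg_left h2 (sq_nonneg (cut a b p))
    have h4 : 0 ≤ K * (w p * w p) := mul_nonneg (by linarith) (mul_self_nonneg _)
    have h5 : 2 * K * S ^ 2 ≤ 4 * K * K * S ^ 2 :=
      mul_le_mul_of_nonneg_right (by nlinarith) (sq_nonneg S)
    nlinarith
  exact abs_le_of_sq_le_sq' hsq (by positivity) |>.2

end Vale.Agent.P229.Annulus
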