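import Mathlib

/-!
# P229 annulus module: directional derivatives in the plane and the second derivative test
-/

open Filter Topology

namespace Vale.Agent.P229.Annulus

/-- The coordinate plane. -/
abbrev Pl : Type := ℝ × ℝ

/-- first unit vector -/
def ex : Pl := (1, 0)

/-- second unit vector -/
def ey : Pl := (0, 1)

/-- squared Euclidean radius -/
def rsq (p : Pl) : ℝ := p.1 ^ 2 + p.2 ^ 2

/-- directional derivative -/
noncomputable def dd (v : Pl) (f : Pl → ℝ) (p : Pl) : ℝ := fderiv ℝ f p v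

lemma dd_contDiff {n : ℕ} {f : Pl → ℝ} (hf : ContDiff ℝ (n + 1 : ℕ) f) (v : Pl) :
    ContDiff ℝ (n : ℕ) (dd v f) := by
  have h : ContDiff ℝ (n : ℕ) (fderiv ℝ f) := hf.fderiv_right (by push_cast; rfl)
  exact h.clm_apply contDiff_const

lemma dd_add {f g : Pl → ℝ} {p : Pl} (hf : DifferentiableAt ℝ f p) (hg : DifferentiableAt ℝ g p)
    (v : Pl) : dd v (fun x => f x + g x) p = dd v f p + dd v g p := by
  simp only [dd]
  rw [fderiv_fun_add hf hg]
  rfl

lemma dd_mul {f g : Pl → ℝ} {p : Pl} (hf : DifferentiableAt ℝ f p) (hg : DifferentiableAt ℝ g p)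
    (v : Pl) : dd v (fun x => f x * g x) p = dd v f p * g p + f p * dd v g p := by
  simp only [dd]
  rw [fderiv_fun_mul hf hg]
  simp
  ring

lemma dd_const (c : ℝ) (p v : Pl) : dd v (fun _ => c) p = 0 := by
  simp [dd]

lemma dd_const_mul {g : Pl → ℝ} {p : Pl} (hg : DifferentiableAt ℝ g p) (c : ℝ)
    (v : Pl) : dd v (fun x => c * g x) p = c * dd v g p := by
  rw [dd_mul (differentiableAt_const c) hg, dd_const]
  ring

lemma dd_congr {f g : Pl → ℝ} {p : Pl} (h : f =ᶠ[𝓝 p] g) (v : Pl) : dd v f p = dd v g p := by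
  simp only [dd]
  rw [h.fderiv_eq]

lemma dd_vec (f : Pl → ℝ) (p v : Pl) : dd v f p = v.1 * dd ex f p + v.2 * dd ey f p := by
  have hv : v = v.1 • ex + v.2 • ey := by simp [ex, ey]
  simp only [dd]
  conv_lhs => rw [hv, map_add, map_smul, map_smul]
  simp

lemma dd_comm {f : Pl → ℝ} (hf : ContDiff ℝ 2 f) (u v p : Pl) :
    dd u (dd v f) p = dd v (dd u f) p := by
  have hd : DifferentiableAt ℝ (fderiv ℝ f) p :=
    ((hf.fderiv_right (m := 1) (by norm_num)).differentiable one_ne_zero) p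
  have hs : IsSymmSndFDerivAt ℝ f p := hf.contDiffAt.isSymmSndFDerivAt (by simp)
  have h1 : ∀ a b : Pl, dd a (dd b f) p = fderiv ℝ (fderiv ℝ f) p a b := by
    intro a b
    show fderiv ℝ (fun q => fderiv ℝ f q b) p a = _
    rw [fderiv_clm_apply hd (differentiableAt_const b)]
    simp
  rw [h1, h1]
  exact hs.eq u v

/-- Second derivative test along a line. -/
lemma snd_deriv_nonpos {φ : Pl → ℝ} (hφ : ContDiff ℝ 2 φ) {x : Pl} (hx : IsLocalMax φ x)
    (v : Pl) : dd v (dd v φ) x ≤ 0 := by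
  by_contra hc
  push Not at hc
  have hd1 : Differentiable ℝ φ := hφ.differentiable (by norm_num)
  have hd2 : Differentiable ℝ (dd v φ) :=
    (dd_contDiff (n := 1) (f := φ) (by exact_mod_cast hφ) v).differentiable (by norm_num)
  set g : ℝ → ℝ := fun t => φ (x + t • v) with hg
  have hline : ∀ t : ℝ, HasDerivAt (fun t : ℝ => x + t • v) v t := by
    intro t
    simpa using ((hasDerivAt_id t).smul_const v).const_add x
  have hg1 : deriv g = fun t => dd v φ (x + t • v) := by
    funext t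
    exact ((hd1 _).hasFDerivAt.comp_hasDerivAt t (hline t)).deriv
  have hg2 : deriv (deriv g) 0 = dd v (dd v φ) x := by
    rw [hg1]
    have h := ((hd2 (x + (0 : ℝ) • v)).hasFDerivAt.comp_hasDerivAt (0 : ℝ) (hline 0)).deriv
    simp only [zero_smul, add_zero] at h
    exact h
  have hg0 : deriv g 0 = 0 := by
    rw [hg1]
    simp [dd, hx.fderiv_eq_zero]
  have hgc : ContinuousAt g 0 :=
    (hd1.continuous.comp (continuous_const.add (continuous_id.smul continuous_const))).continuousAt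
  have hmin : IsLocalMin g 0 := isLocalMin_of_deriv_deriv_pos (by rw [hg2]; exact hc) hg0 hgc
  have hmax : IsLocalMax g 0 := by
    have ht : Tendsto (fun t : ℝ => x + t • v) (𝓝 0) (𝓝 x) := by
      have := (hline 0).continuousAt.tendsto
      simpa using this
    have : ∀ᶠ t in 𝓝 (0 : ℝ), φ (x + t • v) ≤ φ x := ht.eventually hx
    simpa [IsLocalMax, IsMaxFilter, hg] using this
  have hconst : g =ᶠ[𝓝 0] fun _ => g 0 := by
    filter_upwards [hmin, hmax] with t h1 h2 using le_antisymm h2 h1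
  have h1 : deriv g =ᶠ[𝓝 0] fun _ => (0 : ℝ) := by
    filter_upwards [hconst.deriv] with t ht
    rw [ht]
    simp
  have h2 : deriv (deriv g) 0 = 0 := by
    rw [h1.deriv_eq]
    simp
  linarith [hg2 ▸ h2]

/-- At a local maximum a positive semidefinite contraction of the Hessian is nonpositive. -/
lemma contraction_nonpos {φ : Pl → ℝ} (hφ : ContDiff ℝ 2 φ) {x : Pl} (hx : IsLocalMax φ x)
    {a11 a12 a22 : ℝ} (ha : 0 < a11) (hdet : 0 ≤ a11 * a22 - a12 ^ 2) :
    a11 * dd ex (dd ex φ) x + 2 * a12 * dd ey (dd ex φ) x + a22 * dd ey (dd ey φ) x ≤ 0 := by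
  have hd : ∀ u : Pl, Differentiable ℝ (dd u φ) := fun u =>
    (dd_contDiff (n := 1) (f := φ) (by exact_mod_cast hφ) u).differentiable (by norm_num)
  have key : ∀ v1 v2 : ℝ, v1 ^ 2 * dd ex (dd ex φ) x + 2 * v1 * v2 * dd ey (dd ex φ) x
      + v2 ^ 2 * dd ey (dd ey φ) x ≤ 0 := by
    intro v1 v2
    have h := snd_deriv_nonpos hφ hx (v1, v2)
    have e1 : dd (v1, v2) φ = fun p => v1 * dd ex φ p + v2 * dd ey φ p := by
      funext p; exact dd_vec φ p (v1, v2)
    rw [e1] at h
    have e2 : ∀ u : Pl, dd u (fun p => v1 * dd ex φ p + v2 * dd ey φ p) x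
        = v1 * dd u (dd ex φ) x + v2 * dd u (dd ey φ) x := by
      intro u
      rw [dd_add ((hd ex x).const_mul v1) ((hd ey x).const_mul v2),
        dd_const_mul (hd ex x), dd_const_mul (hd ey x)]
    rw [dd_vec _ x (v1, v2), e2, e2, dd_comm hφ ex ey x] at h
    simp only at h
    linarith [h]
  have h22 := key 0 1
  have hv := key a11 a12
  have : a11 * (a11 * dd ex (dd ex φ) x + 2 * a12 * dd ey (dd ex φ) x + a22 * dd ey (dd ey φ) x)
      ≤ 0 := by
    nlinarith [mul_nonneg hdet (show 0 ≤ -dd ey (dd ey φ) x by linarith)]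
  by_contra hcon
  push Not at hcon
  nlinarith [mul_pos ha hcon]

end Vale.Agent.P229.Annulus
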