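import Vale.Agent.P229.Annulus.Bernstein

/-!
# P229 annulus module: a grid code and the interpolation inequality

Equal codes force `|z - z'| ≤ C 2^(-L)` on a smaller annulus when `z - z'` solves an elliptic
equation; Landau's inequality turns this into bounds for the derivatives.
-/

open Filter Topology Metric

namespace Vale.Agent.P229.Annulus

lemma rsq_close {x y : Pl} {h : ℝ} (hh : h ≤ 1 / 10) (hx : rsq x ≤ 9 / 4)
    (hy : y ∈ closedBall x h) : |rsq y - rsq x| ≤ 7 * h := by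
  rw [mem_closedBall, dist_eq_norm, Prod.norm_def, max_le_iff, Real.norm_eq_abs,
    Real.norm_eq_abs] at hy
  simp only [Prod.fst_sub, Prod.snd_sub] at hy
  obtain ⟨h1, h2⟩ := hy
  unfold rsq at hx ⊢
  have hx1 : |x.1| ≤ 3 / 2 := abs_le.2 ⟨by nlinarith [sq_nonneg x.2], by nlinarith [sq_nonneg x.2]⟩
  have hx2 : |x.2| ≤ 3 / 2 := abs_le.2 ⟨by nlinarith [sq_nonneg x.1], by nlinarith [sq_nonneg x.1]⟩
  have key : ∀ a b : ℝ, |b - a| ≤ h → |a| ≤ 3 / 2 → |b ^ 2 - a ^ 2| ≤ h * (31 / 10) := by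
    intro a b hab ha
    have e : b ^ 2 - a ^ 2 = (b - a) * ((b - a) + 2 * a) := by ring
    rw [e]
    refine abs_mul_le' hab ?_
    refine (abs_add_le _ _).trans ?_
    rw [abs_mul, abs_two]
    linarith
  have e : y.1 ^ 2 + y.2 ^ 2 - (x.1 ^ 2 + x.2 ^ 2)
      = (y.1 ^ 2 - x.1 ^ 2) + (y.2 ^ 2 - x.2 ^ 2) := by ring
  rw [e]
  have h0 : 0 ≤ h := (abs_nonneg _).trans h1
  linarith [abs_add_le (y.1 ^ 2 - x.1 ^ 2) (y.2 ^ 2 - x.2 ^ 2), key x.1 y.1 h1 hx1, key x.2 y.2 h2 hx2]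

lemma fderiv_norm_le (f : Pl → ℝ) (p : Pl) : ‖fderiv ℝ f p‖ ≤ |dd ex f p| + |dd ey f p| := by
  refine ContinuousLinearMap.opNorm_le_bound _ (add_nonneg (abs_nonneg _) (abs_nonneg _))
    fun v => ?_
  have e : fderiv ℝ f p v = v.1 * dd ex f p + v.2 * dd ey f p := dd_vec f p v
  rw [e, Real.norm_eq_abs]
  refine (abs_add_le _ _).trans ?_
  have h1 : |v.1| ≤ ‖v‖ := norm_fst_le v
  have h2 : |v.2| ≤ ‖v‖ := norm_snd_le v
  have e1 := abs_mul_le' h1 (le_refl |dd ex f p|)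
  have e2 := abs_mul_le' h2 (le_refl |dd ey f p|)
  linarith

/-- the grid point with index `i` -/
noncomputable def node (m : ℕ) (i : Fin (4 * m + 1) × Fin (4 * m + 1)) : Pl :=
  (((i.1 : ℝ) - 2 * m) / m, ((i.2 : ℝ) - 2 * m) / m)

lemma exists_node {m : ℕ} (hm : 1 ≤ m) {x : Pl} (h1 : |x.1| ≤ 2) (h2 : |x.2| ≤ 2) :
    ∃ i, node m i ∈ closedBall x (1 / (m : ℝ)) := by
  have hm' : (0 : ℝ) < m := by exact_mod_cast hm
  have key : ∀ a : ℝ, |a| ≤ 2 → ∃ i : Fin (4 * m + 1), |((i : ℝ) - 2 * m) / m - a| ≤ 1 / (m : ℝ) := by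
    intro a ha
    obtain ⟨ha1, ha2⟩ := abs_le.1 ha
    have hnn : 0 ≤ (a + 2) * m := mul_nonneg (by linarith) hm'.le
    have hlt : ⌊(a + 2) * (m : ℝ)⌋₊ < 4 * m + 1 := by
      rw [Nat.lt_succ_iff]
      refine Nat.floor_le_of_le ?_
      push_cast
      nlinarith
    refine ⟨⟨_, hlt⟩, ?_⟩
    have f1 := Nat.floor_le hnn
    have f2 := Nat.lt_floor_add_one ((a + 2) * (m : ℝ))
    simp only
    rw [abs_le]
    constructor
    · rw [le_sub_iff_add_le, le_div_iff₀ hm', add_mul, neg_mul, div_mul_cancel₀ _ hm'.ne']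
      linarith
    · rw [sub_le_iff_le_add, div_le_iff₀ hm', add_mul (1 / (m : ℝ)) a, div_mul_cancel₀ _ hm'.ne']
      linarith
  obtain ⟨i, hi⟩ := key x.1 h1
  obtain ⟨j, hj⟩ := key x.2 h2
  refine ⟨(i, j), ?_⟩
  rw [mem_closedBall, dist_eq_norm, Prod.norm_def, max_le_iff]
  exact ⟨hi, hj⟩

/-- quantisation of a value in `[-M, M]` to step `2^(-L)` -/
noncomputable def quant (M : ℝ) (L R : ℕ) (v : ℝ) : Fin (R + 1) :=
  ⟨min ⌊(v + M) * 2 ^ L⌋₊ R, Nat.lt_succ_of_le (min_le_right _ _)⟩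

lemma quant_close {M : ℝ} {L R : ℕ} (hR : 2 * M * 2 ^ L ≤ R) {v v' : ℝ} (hv : |v| ≤ M)
    (hv' : |v'| ≤ M) (h : quant M L R v = quant M L R v') : |v - v'| ≤ (1 / 2) ^ L := by
  have hp : (0 : ℝ) < 2 ^ L := by positivity
  have hf : ∀ u : ℝ, |u| ≤ M → 0 ≤ (u + M) * 2 ^ L ∧ ⌊(u + M) * 2 ^ L⌋₊ ≤ R := by
    intro u hu
    obtain ⟨h1, h2⟩ := abs_le.1 hu
    exact ⟨mul_nonneg (by linarith) hp.le, Nat.floor_le_of_le
      ((mul_le_mul_of_nonneg_right (by linarith : u + M ≤ 2 * M) hp.le).trans hR)⟩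
  have e := congrArg Fin.val h
  simp only [quant] at e
  rw [min_eq_left (hf v hv).2, min_eq_left (hf v' hv').2] at e
  have a1 := Nat.floor_le (hf v hv).1
  have a2 := Nat.lt_floor_add_one ((v + M) * 2 ^ L)
  have b1 := Nat.floor_le (hf v' hv').1
  have b2 := Nat.lt_floor_add_one ((v' + M) * 2 ^ L)
  rw [e] at a1 a2
  rw [one_div, inv_pow, ← one_div, le_div_iff₀ hp]
  have : |v - v'| * 2 ^ L = |(v + M) * 2 ^ L - (v' + M) * 2 ^ L| := by
    rw [← sub_mul, abs_mul, abs_of_pos hp]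
    congr 2
    ring
  rw [this, abs_le]
  constructor <;> linarith

/-- One step of the iteration: near a node where `w` is small, `w` is smaller. -/
lemma shrink_step {lam Lam C0 : ℝ} (hC0 : 0 < C0)
    (hgrad : ∀ (w : Pl → ℝ) (a b S : ℝ), 1 ≤ a → b ≤ 3 → ContDiff ℝ (3 : ℕ) w →
      SolvesOn lam Lam w (oann a b) → (∀ p ∈ ann a b, |w p| ≤ S) →
      ∀ p ∈ ann a b, cut a b p * (|dd ex w p| + |dd ey w p|) ≤ C0 * S)
    {w : Pl → ℝ} (hw : ContDiff ℝ (3 : ℕ) w) {a b δ S h : ℝ} (ha : 1 ≤ a) (hb : b ≤ 9 / 4)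
    (hab : 4 / 5 + δ / 2 ≤ b - a) (hδ : 0 < δ) (hh : h ≤ δ / 20) (hδ1 : δ ≤ 1)
    (hh0 : C0 * h ≤ δ / 20) (hS : ∀ p ∈ ann a b, |w p| ≤ S) (hsol : SolvesOn lam Lam w (oann a b))
    {x n : Pl} (hxa : a + δ ≤ rsq x) (hxb : rsq x ≤ b - δ) (hn : n ∈ closedBall x h) :
    n ∈ ann a b ∧ |w x| ≤ |w n| + S / 4 := by
  have hh1 : h ≤ 1 / 10 := by linarith
  have hhn : 0 ≤ h := dist_nonneg.trans hn
  have hball : ∀ y ∈ closedBall x h, a + δ / 2 ≤ rsq y ∧ rsq y ≤ b - δ / 2 := by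
    intro y hy
    have := abs_le.1 (rsq_close hh1 (by linarith) hy)
    constructor <;> linarith
  have hnn : n ∈ ann a b := by
    obtain ⟨h1, h2⟩ := hball n hn
    exact ⟨by linarith, by linarith⟩
  refine ⟨hnn, ?_⟩
  have hS0 : 0 ≤ S := (abs_nonneg _).trans (hS n hnn)
  set D : ℝ := C0 * S / (δ / 5) with hD
  have hder : ∀ y ∈ closedBall x h, ‖fderiv ℝ w y‖ ≤ D := by
    intro y hy
    obtain ⟨h1, h2⟩ := hball y hy
    have hg := hgrad w a b S ha (by linarith) hw hsol hS y ⟨by linarith, by linarith⟩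
    refine (fderiv_norm_le w y).trans ?_
    rw [hD, le_div_iff₀ (by positivity)]
    have hcut : δ / 5 ≤ cut a b y := by
      unfold cut
      rcases le_total (rsq y) ((a + b) / 2) with hc | hc
      · have := mul_le_mul (show δ / 2 ≤ rsq y - a by linarith)
          (show (4 / 5 : ℝ) ≤ b - rsq y + (b - rsq y) by linarith) (by norm_num) (by linarith)
        linarith
      · have := mul_le_mul (show (4 / 5 : ℝ) ≤ rsq y - a + (rsq y - a) by linarith)
          (show δ / 2 ≤ b - rsq y by linarith) (by linarith) (by linarith)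
        linarith
    have hnn : 0 ≤ |dd ex w y| + |dd ey w y| := add_nonneg (abs_nonneg _) (abs_nonneg _)
    calc (|dd ex w y| + |dd ey w y|) * (δ / 5)
        ≤ (|dd ex w y| + |dd ey w y|) * cut a b y := mul_le_mul_of_nonneg_left hcut hnn
      _ ≤ C0 * S := by rw [mul_comm]; exact hg
  have hdiff : Differentiable ℝ w := hw.differentiable (by norm_num)
  have hmvt := (convex_closedBall x h).norm_image_sub_le_of_norm_fderiv_le
    (fun y _ => hdiff y) hder hn (mem_closedBall_self hhn)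
  have hdist : ‖x - n‖ ≤ h := by
    rw [← dist_eq_norm, dist_comm]
    exact hn
  have hDh : D * h ≤ S / 4 := by
    rw [hD, div_mul_eq_mul_div, div_le_iff₀ (by positivity)]
    calc C0 * S * h = S * (C0 * h) := by ring
      _ ≤ S * (δ / 20) := mul_le_mul_of_nonneg_left hh0 hS0
      _ = S / 4 * (δ / 5) := by ring
  rw [Real.norm_eq_abs] at hmvt
  have h2 := hmvt.trans (mul_le_mul_of_nonneg_left hdist (by positivity))
  have h3 := abs_sub_abs_le_abs_sub (w x) (w n)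
  linarith

/-- A code with `exp (C L³)` values; equal codes give `2^(-L)`. -/
theorem code_bound {lam Lam : ℝ} (hl : 0 < lam) (hLam : 1 ≤ Lam) {M : ℝ} (hM : 0 ≤ M) :
    ∃ C : ℝ, 0 < C ∧ ∀ L : ℕ, 1 ≤ L → ∃ (K : ℕ) (code : (Pl → ℝ) → ℕ),
      (∀ z, code z < K) ∧ Real.log K ≤ C * (L : ℝ) ^ 3 ∧
      ∀ z z' : Pl → ℝ, ∀ w : Pl → ℝ, ContDiff ℝ (3 : ℕ) w →
        (∀ p ∈ ann (13 / 10) (56 / 25), w p = z p - z' p) →
        (∀ p ∈ ann (13 / 10) (56 / 25), |z p| ≤ M) →
        (∀ p ∈ ann (13 / 10) (56 / 25), |z' p| ≤ M) →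
        SolvesOn lam Lam w (oann (13 / 10) (56 / 25)) → code z = code z' →
        ∀ p ∈ ann (67 / 50) (11 / 5), |w p| ≤ C * (1 / 2) ^ L := by
  obtain ⟨C0, hC0, hgrad⟩ := grad_bound hl hLam
  obtain ⟨N0, hN0'⟩ : ∃ n : ℕ, 500 * C0 ≤ (n : ℝ) ∧ (500 : ℝ) ≤ n := by
    obtain ⟨n, hn⟩ := exists_nat_ge (max (500 * C0) 500)
    exact ⟨n, (le_max_left _ _).trans hn, (le_max_right _ _).trans hn⟩
  have hN0pos : 0 < N0 := by
    have : (0 : ℝ) < (N0 : ℝ) := by linarith [hN0'.2]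
    exact_mod_cast this
  set B : ℕ := ⌈2 * M⌉₊ with hB
  refine ⟨25 * (N0 : ℝ) ^ 2 * ((B : ℝ) + 2) + (4 + 2 * M), by positivity, fun L hL => ?_⟩
  have hL' : (1 : ℝ) ≤ L := by exact_mod_cast hL
  set m : ℕ := N0 * L with hm
  have hm1 : 1 ≤ m := by
    rw [hm]
    exact Nat.one_le_iff_ne_zero.2 (mul_ne_zero hN0pos.ne' (by omega))
  set R : ℕ := B * 2 ^ L with hR
  let code' : (Pl → ℝ) → (Fin (4 * m + 1) × Fin (4 * m + 1) → Fin (R + 1)) :=
    fun z i => quant M L R (z (node m i))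
  refine ⟨Fintype.card (Fin (4 * m + 1) × Fin (4 * m + 1) → Fin (R + 1)),
    fun z => (Fintype.equivFin _ (code' z) : ℕ), fun z => Fin.is_lt _, ?_, ?_⟩
  · simp only [Fintype.card_fun, Fintype.card_prod, Fintype.card_fin]
    push_cast
    rw [Real.log_pow]
    have h1 : Real.log ((R : ℝ) + 1) ≤ (B : ℝ) + 1 + L := by
      have hle : (R : ℝ) + 1 ≤ ((B : ℝ) + 1) * 2 ^ L := by
        rw [hR]
        push_cast
        linarith [one_le_pow₀ (one_le_two : (1 : ℝ) ≤ 2) (n := L)]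
      refine (Real.log_le_log (by positivity) hle).trans ?_
      rw [Real.log_mul (by positivity) (by positivity), Real.log_pow]
      have l1 := Real.log_le_sub_one_of_pos (by positivity : (0 : ℝ) < (B : ℝ) + 1)
      have l2 := Real.log_le_sub_one_of_pos (zero_lt_two : (0 : ℝ) < 2)
      have l3 : (L : ℝ) * Real.log 2 ≤ L * 1 := mul_le_mul_of_nonneg_left (by linarith) (by linarith)
      linarith
    have h2 : (4 * (m : ℝ) + 1) ≤ 5 * (N0 * L) := by
      rw [hm]
      push_cast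
      nlinarith [hN0'.2]
    have hlog0 : 0 ≤ Real.log ((R : ℝ) + 1) := Real.log_nonneg (by linarith [Nat.cast_nonneg (α := ℝ) R])
    push_cast
    calc (4 * (m : ℝ) + 1) * (4 * (m : ℝ) + 1) * Real.log ((R : ℝ) + 1)
        ≤ (5 * (N0 * L)) * (5 * (N0 * L)) * (((B : ℝ) + 2) * L) := by
          refine mul_le_mul (mul_le_mul h2 h2 (by positivity) (by positivity)) ?_ hlog0 (by positivity)
          nlinarith
      _ = 25 * (N0 : ℝ) ^ 2 * ((B : ℝ) + 2) * (L : ℝ) ^ 3 := by ring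
      _ ≤ _ := mul_le_mul_of_nonneg_right (by linarith) (by positivity)
  intro z z' w hw hwe hz hz' hs hcode p hp
  have hcode' : code' z = code' z' :=
    (Fintype.equivFin _).injective (Fin.ext hcode)
  set δ : ℝ := 1 / (25 * L) with hδ
  have hδ0 : 0 < δ := by positivity
  have hδL : (L : ℝ) * δ = 1 / 25 := by
    rw [hδ]
    field_simp
  have hstep : ∀ l : ℕ, l ≤ L → ∀ x ∈ ann (13 / 10 + l * δ) (56 / 25 - l * δ),
      |w x| ≤ 4 * (1 / 2) ^ L + 2 * M * (1 / 4) ^ l := by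
    intro l
    induction l with
    | zero =>
      intro _ x hx
      simp only [Nat.cast_zero, zero_mul, add_zero, sub_zero] at hx
      rw [hwe x hx]
      have hpos : (0 : ℝ) ≤ (1 / 2) ^ L := by positivity
      linarith [abs_sub (z x) (z' x), hz x hx, hz' x hx]
    | succ l ih =>
      intro hl1 x hx
      have hS := ih (by omega)
      set S : ℝ := 4 * (1 / 2) ^ L + 2 * M * (1 / 4) ^ l with hSdef
      set a : ℝ := 13 / 10 + (l : ℝ) * δ with ha
      set b : ℝ := 56 / 25 - (l : ℝ) * δ with hb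
      have hlδ : (l : ℝ) * δ + δ ≤ 1 / 25 := by
        rw [← hδL]
        have : ((l : ℝ) + 1) ≤ L := by exact_mod_cast hl1
        nlinarith
      have hl0 : 0 ≤ (l : ℝ) * δ := by positivity
      push_cast at hx
      obtain ⟨hx1, hx2⟩ := hx
      have hxq : rsq x ≤ 9 / 4 := by linarith
      have hh : 1 / (m : ℝ) ≤ δ / 20 := by
        rw [hδ, hm]
        push_cast
        rw [div_div, one_div_le_one_div (by positivity) (by positivity)]
        nlinarith [hN0'.2]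
      have hbox : |x.1| ≤ 2 ∧ |x.2| ≤ 2 := by
        unfold rsq at hxq
        exact ⟨abs_le.2 ⟨by nlinarith only [hxq, sq_nonneg x.2],
            by nlinarith only [hxq, sq_nonneg x.2]⟩,
          abs_le.2 ⟨by nlinarith only [hxq, sq_nonneg x.1],
            by nlinarith only [hxq, sq_nonneg x.1]⟩⟩
      obtain ⟨i, hi⟩ := exists_node hm1 hbox.1 hbox.2
      have hsol : SolvesOn lam Lam w (oann a b) :=
        hs.mono fun q hq => ⟨by linarith [hq.1], by linarith [hq.2]⟩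
      have hh0 : C0 * (1 / (m : ℝ)) ≤ δ / 20 := by
        rw [hδ, hm]
        push_cast
        rw [div_div, mul_one_div, div_le_div_iff₀ (by positivity) (by positivity)]
        calc C0 * (25 * (L : ℝ) * 20) = 500 * C0 * L := by ring
          _ ≤ 1 * ((N0 : ℝ) * L) := by
            rw [one_mul]
            exact mul_le_mul_of_nonneg_right hN0'.1 (by linarith)
      obtain ⟨hnode', hstep'⟩ := shrink_step hC0 hgrad hw (δ := δ) (S := S) (by linarith)
        (by linarith) (by linarith) hδ0 hh (by linarith) hh0 hS hsol (x := x) (by linarith)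
        (by linarith) hi
      have hnode : node m i ∈ ann (13 / 10) (56 / 25) :=
        ⟨by linarith [hnode'.1], by linarith [hnode'.2]⟩
      have hwn : |w (node m i)| ≤ (1 / 2) ^ L := by
        rw [hwe _ hnode]
        refine quant_close ?_ (hz _ hnode) (hz' _ hnode) (congrFun hcode' i)
        rw [hR]
        push_cast
        exact mul_le_mul_of_nonneg_right (Nat.le_ceil _) (by positivity)
      have hpos : (0 : ℝ) ≤ (1 / 2) ^ L := by positivity
      have h4 : 2 * M * (1 / 4) ^ (l + 1) = 2 * M * (1 / 4) ^ l / 4 := by ring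
      rw [hSdef] at hstep'
      linarith
  have hp' : p ∈ ann (13 / 10 + (L : ℕ) * δ) (56 / 25 - (L : ℕ) * δ) := by
    rw [hδL]
    exact ⟨by linarith [hp.1], by linarith [hp.2]⟩
  refine (hstep L le_rfl p hp').trans ?_
  have h14 : ((1 : ℝ) / 4) ^ L ≤ (1 / 2) ^ L := pow_le_pow_left₀ (by norm_num) (by norm_num) L
  have hpos : (0 : ℝ) ≤ 25 * (N0 : ℝ) ^ 2 * ((B : ℝ) + 2) := by positivity
  calc 4 * (1 / 2) ^ L + 2 * M * (1 / 4) ^ L ≤ (4 + 2 * M) * (1 / 2) ^ L := by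
        rw [add_mul]
        exact add_le_add le_rfl (mul_le_mul_of_nonneg_left h14 (by linarith))
    _ ≤ _ := mul_le_mul_of_nonneg_right (by linarith) (by positivity)

/-- Landau's inequality for the derivatives of `w` on a ball. -/
lemma landau_step {w : Pl → ℝ} {j : ℕ} (hw : ContDiff ℝ (j + 2 : ℕ) w) {x : Pl} {ρ ε M2 : ℝ}
    (hρ : 0 < ρ) (h0 : ∀ y ∈ closedBall x ρ, ‖iteratedFDeriv ℝ j w y‖ ≤ ε)
    (h2 : ∀ y ∈ closedBall x ρ, ‖iteratedFDeriv ℝ (j + 2) w y‖ ≤ M2) :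
    ‖iteratedFDeriv ℝ (j + 1) w x‖ ≤ 2 * ε / ρ + M2 * ρ := by
  set f := iteratedFDeriv ℝ j w with hf
  have hfd : Differentiable ℝ f := hw.differentiable_iteratedFDeriv (by exact_mod_cast (by omega : j < j + 2))
  have hgd : Differentiable ℝ (iteratedFDeriv ℝ (j + 1) w) :=
    hw.differentiable_iteratedFDeriv (by exact_mod_cast (by omega : j + 1 < j + 2))
  have hM0 : 0 ≤ M2 := (norm_nonneg _).trans (h2 x (mem_closedBall_self hρ.le))
  have hε0 : 0 ≤ ε := (norm_nonneg _).trans (h0 x (mem_closedBall_self hρ.le))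
  rw [← norm_fderiv_iteratedFDeriv]
  set φ := fderiv ℝ f x with hφ
  have hlip : ∀ y ∈ closedBall x ρ, ‖fderiv ℝ f y - φ‖ ≤ M2 * ρ := by
    intro y hy
    have hG : ‖iteratedFDeriv ℝ (j + 1) w y - iteratedFDeriv ℝ (j + 1) w x‖ ≤ M2 * ρ := by
      refine ((convex_closedBall x ρ).norm_image_sub_le_of_norm_fderiv_le (C := M2) (fun z _ => hgd z)
        (fun z hz => ?_) (mem_closedBall_self hρ.le) hy).trans ?_
      · rw [norm_fderiv_iteratedFDeriv]
        exact h2 z hz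
      · refine mul_le_mul_of_nonneg_left ?_ hM0
        rwa [← dist_eq_norm]
    refine ContinuousLinearMap.opNorm_le_bound _ (by positivity) fun v => ?_
    refine ContinuousMultilinearMap.opNorm_le_bound (by positivity) fun m => ?_
    have e : ∀ z, fderiv ℝ f z v m = iteratedFDeriv ℝ (j + 1) w z (Fin.cons v m) := fun z => by
      rw [iteratedFDeriv_succ_apply_left]
      simp [hf]
    have e' : (fderiv ℝ f y - φ) v m
        = (iteratedFDeriv ℝ (j + 1) w y - iteratedFDeriv ℝ (j + 1) w x) (Fin.cons v m) := by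
      show fderiv ℝ f y v m - fderiv ℝ f x v m = _
      rw [e, e]
      rfl
    rw [e']
    refine (ContinuousMultilinearMap.le_of_opNorm_le hG _).trans_eq ?_
    rw [Fin.prod_univ_succ]
    simp
    ring
  refine ContinuousLinearMap.opNorm_le_bound _ (by positivity) fun v => ?_
  rcases eq_or_ne v 0 with rfl | hv
  · simp
  have hv0 : 0 < ‖v‖ := norm_pos_iff.2 hv
  set u : Pl := (ρ / ‖v‖) • v with hu
  have hun : ‖u‖ = ρ := by
    rw [hu, norm_smul, Real.norm_eq_abs, abs_of_pos (by positivity), div_mul_cancel₀ _ hv0.ne']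
  have hmem : x + u ∈ closedBall x ρ := by simp [mem_closedBall, hun]
  have hmvt := (convex_closedBall x ρ).norm_image_sub_le_of_norm_fderiv_le' (fun z _ => hfd z)
    hlip (mem_closedBall_self hρ.le) hmem
  simp only [add_sub_cancel_left, hun] at hmvt
  have hφu : ‖φ u‖ ≤ 2 * ε + M2 * ρ * ρ := by
    have e : φ u = (f (x + u) - f x) - ((f (x + u) - f x) - φ u) := by abel
    rw [e]
    refine (norm_sub_le _ _).trans ?_
    have := (norm_sub_le (f (x + u)) (f x)).trans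
      (add_le_add (h0 _ hmem) (h0 x (mem_closedBall_self hρ.le)))
    linarith
  have e : φ u = (ρ / ‖v‖) • φ v := by rw [hu, map_smul]
  rw [e, norm_smul, Real.norm_eq_abs, abs_of_pos (by positivity)] at hφu
  have h3 : ρ * ‖φ v‖ ≤ (2 * ε + M2 * ρ * ρ) * ‖v‖ := by
    rw [← div_le_iff₀ hv0]
    rw [mul_div_right_comm]
    exact hφu
  rw [← sub_nonneg] at h3 ⊢
  have e2 : (2 * ε + M2 * ρ * ρ) * ‖v‖ - ρ * ‖φ v‖
      = ρ * ((2 * ε / ρ + M2 * ρ) * ‖v‖ - ‖φ v‖) := by
    field_simp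
  rw [e2] at h3
  exact nonneg_of_mul_nonneg_right h3 hρ

/-- Interpolation on annuli: smallness of `w` gives smallness of its first seven derivatives. -/
theorem annulus_small {M : ℝ} (hM : 0 ≤ M) : ∃ C : ℝ, 0 < C ∧ ∀ (w : Pl → ℝ) (τ : ℝ),
    0 < τ → τ ≤ 1 → ContDiff ℝ (8 : ℕ) w →
    (∀ j ≤ 8, ∀ x ∈ ann (67 / 50) (11 / 5), ‖iteratedFDeriv ℝ j w x‖ ≤ M) →
    (∀ x ∈ ann (67 / 50) (11 / 5), |w x| ≤ τ ^ 256) →
    ∀ j ≤ 7, ∀ x ∈ ann (36 / 25) (841 / 400), ‖iteratedFDeriv ℝ j w x‖ ≤ C * τ := by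
  refine ⟨(2001 : ℝ) ^ 7 * (1 + M), by positivity, fun w τ hτ hτ1 hw hb h0 j hj x hx => ?_⟩
  have key : ∀ j : ℕ, j ≤ 7 → ∀ x ∈ ann (67 / 50 + j * (1 / 125)) (11 / 5 - j * (1 / 125)),
      ‖iteratedFDeriv ℝ j w x‖ ≤ (2001 : ℝ) ^ j * (1 + M) * τ ^ (2 ^ (8 - j)) := by
    intro j
    induction j with
    | zero =>
      intro _ x hx
      simp only [Nat.cast_zero, zero_mul, add_zero, sub_zero] at hx
      rw [norm_iteratedFDeriv_zero, Real.norm_eq_abs]
      refine (h0 x hx).trans ?_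
      norm_num
      nlinarith [pow_pos hτ 256]
    | succ j ih =>
      intro hj1 x hx
      push_cast at hx
      obtain ⟨hx1, hx2⟩ := hx
      have hj0 : (0 : ℝ) ≤ j := Nat.cast_nonneg j
      set T : ℝ := τ ^ (2 ^ (8 - (j + 1))) with hT
      have hT0 : 0 < T := pow_pos hτ _
      have hT1 : T ≤ 1 := pow_le_one₀ hτ.le hτ1
      have hTT : τ ^ (2 ^ (8 - j)) = T * T := by
        rw [hT, ← pow_add]
        congr 1
        rw [show 8 - j = (8 - (j + 1)) + 1 by omega, pow_succ]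
        ring
      have hball : ∀ y ∈ closedBall x (T / 1000),
          y ∈ ann (67 / 50 + j * (1 / 125)) (11 / 5 - j * (1 / 125)) := by
        intro y hy
        have := abs_le.1 (rsq_close (by linarith : T / 1000 ≤ 1 / 10) (by linarith) hy)
        constructor <;> linarith
      have h := landau_step (hw.of_le (by exact_mod_cast (by omega : j + 2 ≤ 8)))
        (by positivity : 0 < T / 1000) (fun y hy => ih (by omega) y (hball y hy))
        (fun y hy => hb (j + 2) (by omega) y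
          ⟨by linarith [(hball y hy).1], by linarith [(hball y hy).2]⟩)
      refine h.trans ?_
      rw [hTT]
      have e : 2 * ((2001 : ℝ) ^ j * (1 + M) * (T * T)) / (T / 1000)
          = 2000 * ((2001 : ℝ) ^ j * (1 + M)) * T := by
        field_simp
        ring
      rw [e, pow_succ]
      have h1 : (1 : ℝ) ≤ 2001 ^ j := one_le_pow₀ (by norm_num)
      have h2 : M * (T / 1000) ≤ (2001 : ℝ) ^ j * (1 + M) * T := by
        calc M * (T / 1000) ≤ (1 + M) * T := mul_le_mul (by linarith) (by linarith) (by positivity) (by linarith)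
          _ ≤ _ := mul_le_mul_of_nonneg_right (le_mul_of_one_le_left (by linarith) h1) hT0.le
      linarith
  have hx' : x ∈ ann (67 / 50 + j * (1 / 125)) (11 / 5 - j * (1 / 125)) := by
    have : (j : ℝ) ≤ 7 := by exact_mod_cast hj
    constructor <;> linarith [hx.1, hx.2]
  refine (key j hj x hx').trans ?_
  have h1 : τ ^ (2 ^ (8 - j)) ≤ τ := by
    calc τ ^ (2 ^ (8 - j)) ≤ τ ^ 1 := pow_le_pow_of_le_one hτ.le hτ1 (Nat.one_le_two_pow)
      _ = τ := pow_one τ
  refine mul_le_mul ?_ h1 (by positivity) (by positivity)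
  exact mul_le_mul_of_nonneg_right (pow_le_pow_right₀ (by norm_num) hj) (by linarith)

end Vale.Agent.P229.Annulus
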