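import Vale.Agent.P229.Annulus.Radial
import Vale.Agent.P229.Annulus.Code

/-!
# P229 annulus module: heights of island solutions

A global function that equals the height of an island solution near the annulus satisfies the
radial curvature equation there, with Laplacian bounded below.
-/

open scoped ContDiff RealInnerProductSpace
open Filter Topology Metric

namespace Vale.Agent.P229.Annulus

lemma dd_dd_eq {f : Pl → ℝ} {p : Pl} (hf : ContDiffAt ℝ 2 f p) (a b : Pl) :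
    dd a (dd b f) p = iteratedFDeriv ℝ 2 f p ![a, b] := by
  have hd : DifferentiableAt ℝ (fderiv ℝ f) p :=
    (hf.fderiv_right (m := 1) (by norm_num)).differentiableAt (by norm_num)
  rw [iteratedFDeriv_two_apply]
  show fderiv ℝ (fun q => fderiv ℝ f q b) p a = _
  rw [fderiv_clm_apply hd (differentiableAt_const b)]
  simp

lemma norm_ex : ‖ex‖ = 1 := by simp [ex, Prod.norm_def]

lemma norm_ey : ‖ey‖ = 1 := by simp [ey, Prod.norm_def]

lemma abs_dd_le (f : Pl → ℝ) (p : Pl) {v : Pl} (hv : ‖v‖ = 1) : |dd v f p| ≤ ‖fderiv ℝ f p‖ := by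
  rw [← Real.norm_eq_abs]
  simpa [hv, dd] using (fderiv ℝ f p).le_opNorm v

lemma norm_iteratedFDeriv_dd {f : Pl → ℝ} {n : ℕ} (hf : ContDiff ℝ (n + 1 : ℕ) f) {v : Pl}
    (hv : ‖v‖ = 1) (p : Pl) :
    ‖iteratedFDeriv ℝ n (dd v f) p‖ ≤ ‖iteratedFDeriv ℝ (n + 1) f p‖ := by
  have e : dd v f = (ContinuousLinearMap.apply ℝ ℝ v) ∘ fderiv ℝ f := rfl
  have hd : ContDiffAt ℝ (n : ℕ) (fderiv ℝ f) p :=
    (hf.fderiv_right (m := (n : ℕ)) (by push_cast; rfl)).contDiffAt
  rw [e]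
  refine (ContinuousLinearMap.norm_iteratedFDeriv_comp_left _ hd le_rfl).trans ?_
  rw [norm_iteratedFDeriv_fderiv]
  refine mul_le_of_le_one_left (norm_nonneg _) ?_
  refine ContinuousLinearMap.opNorm_le_bound _ zero_le_one fun g => ?_
  simpa [hv] using g.le_opNorm v

/-- A height on the annulus. -/
structure Height (s β M a0 : ℝ) (z : Pl → ℝ) : Prop where
  smooth : ContDiff ℝ (8 : ℕ) z
  bd : ∀ j ≤ 8, ∀ x ∈ ann (13 / 10) (56 / 25), ‖iteratedFDeriv ℝ j z x‖ ≤ M
  eqn : ∀ x ∈ ann (13 / 10) (56 / 25),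
    (dd ex (dd ex z) x - ga s β x * dd ex z x + gb s β x * dd ey z x)
        * (dd ey (dd ey z) x + ga s β x * dd ex z x - gb s β x * dd ey z x)
      - (dd ex (dd ey z) x - gb s β x * dd ex z x - ga s β x * dd ey z x) ^ 2
    = f0 s β x * (1 - s ^ 2 * ((dd ex z x * dd ex z x + dd ey z x * dd ey z x) / phi s β x))
  lap : ∀ x ∈ ann (13 / 10) (56 / 25), a0 ≤ dd ex (dd ex z) x + dd ey (dd ey z) x
  flat : ∀ x ∈ ann (13 / 10) (56 / 25),
    s ^ 2 * (dd ex z x * dd ex z x + dd ey z x * dd ey z x) ≤ 1 / 2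

lemma closedBall_subset_disc {r : ℝ} (hr : 2 * r ^ 2 < 16) : closedBall (0 : Pl) r ⊆ disc 4 := by
  intro x hx
  rw [mem_closedBall, dist_zero_right, Prod.norm_def, max_le_iff, Real.norm_eq_abs,
    Real.norm_eq_abs] at hx
  have h1 := pow_le_pow_left₀ (abs_nonneg _) hx.1 2
  have h2 := pow_le_pow_left₀ (abs_nonneg _) hx.2 2
  rw [sq_abs] at h1 h2
  show nsq x < 4 ^ 2
  unfold nsq
  linarith

lemma mem_ball_of_rsq_lt {x : Pl} (hx : rsq x < 4) : x ∈ ball (0 : Pl) 2 := by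
  unfold rsq at hx
  rw [mem_ball, dist_zero_right, Prod.norm_def, max_lt_iff, Real.norm_eq_abs, Real.norm_eq_abs]
  exact ⟨abs_lt_of_sq_lt_sq (by linarith [sq_nonneg x.2]) (by norm_num),
    abs_lt_of_sq_lt_sq (by linarith [sq_nonneg x.1]) (by norm_num)⟩

/-- Bounds for the height on the ball of radius `2`. -/
lemma height_bounds {k : ℕ} (hk : 8 ≤ k) {s β M a0 : ℝ} (hs : 0 < s) (hs1 : s ≤ 1) (hM : 1 ≤ M)
    {π : Pert} {G : Pl → R3} {e : R3} (hsol : IslandSol k s β M a0 π G e) :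
    (∀ x ∈ closedBall (0 : Pl) 2, ∀ j ≤ 8, ‖iteratedFDeriv ℝ j (zOf s G e) x‖ ≤ 4 * M) ∧
    (∀ x ∈ closedBall (0 : Pl) 2,
      a0 - 4 * M * s ≤ dd ex (dd ex (zOf s G e)) x + dd ey (dd ey (zOf s G e)) x) := by
  obtain ⟨hG, -, hG0, hbd, he, he1, he2, hlap⟩ := hsol
  have hdisc : IsOpen (disc 4) := by
    show IsOpen {x : Pl | nsq x < 4 ^ 2}
    exact isOpen_lt (by unfold nsq; fun_prop) continuous_const
  have hsub : closedBall (0 : Pl) 2 ⊆ disc 4 := closedBall_subset_disc (by norm_num)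
  have hat : ∀ x ∈ closedBall (0 : Pl) 2, ContDiffAt ℝ (k : ℕ) G x := fun x hx =>
    (hG x (hsub hx)).contDiffAt (hdisc.mem_nhds (hsub hx))
  set T : R3 →L[ℝ] ℝ := s⁻¹ • innerSL ℝ e with hT
  have hTn : ‖T‖ ≤ s⁻¹ := by
    rw [hT, norm_smul, innerSL_apply_norm, he, mul_one, Real.norm_eq_abs, abs_of_pos (inv_pos.2 hs)]
  have hz : zOf s G e = T ∘ G := by
    funext x
    simp [zOf, hT, real_inner_comm e, div_eq_inv_mul]
  have hzat : ∀ x ∈ closedBall (0 : Pl) 2, ContDiffAt ℝ (k : ℕ) (zOf s G e) x := fun x hx => by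
    rw [hz]
    exact T.contDiff.contDiffAt.comp x (hat x hx)
  have hhigh : ∀ x ∈ closedBall (0 : Pl) 2, ∀ j, 2 ≤ j → j ≤ k →
      ‖iteratedFDeriv ℝ j (zOf s G e) x‖ ≤ M * s ^ (j - 2) := by
    intro x hx j hj hjk
    rw [hz]
    refine (T.norm_iteratedFDeriv_comp_left (hat x hx) (by exact_mod_cast hjk)).trans ?_
    refine (mul_le_mul hTn (hbd j hj hjk x (hsub hx)) (norm_nonneg _) (inv_pos.2 hs).le).trans_eq ?_
    rw [show j - 1 = (j - 2) + 1 by omega, pow_succ]
    field_simp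
  have hMle : ∀ j, M * s ^ (j - 2) ≤ M := fun j =>
    mul_le_of_le_one_right (by linarith) (pow_le_one₀ hs.le hs1)
  have h0 : (0 : Pl) ∈ closedBall (0 : Pl) 2 := mem_closedBall_self (by norm_num)
  have hcv := convex_closedBall (0 : Pl) 2
  have hz1 : fderiv ℝ (zOf s G e) 0 = 0 := by
    have hd : DifferentiableAt ℝ G 0 := (hat 0 h0).differentiableAt (by exact_mod_cast (by omega : k ≠ 0))
    rw [hz, fderiv_comp _ T.differentiableAt hd, T.fderiv]
    refine ContinuousLinearMap.ext fun v => ?_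
    have hv : v = v.1 • ((1 : ℝ), (0 : ℝ)) + v.2 • ((0 : ℝ), (1 : ℝ)) := by simp
    rw [hv, ContinuousLinearMap.comp_apply, map_add, map_smul, map_smul, map_add, map_smul, map_smul]
    simp only [d1, d2] at he1 he2
    simp [hT, real_inner_comm e, he1, he2]
    rw [real_inner_comm, he1, real_inner_comm, he2]
    simp
  have hfd : ∀ x ∈ closedBall (0 : Pl) 2, DifferentiableAt ℝ (fderiv ℝ (zOf s G e)) x := fun x hx =>
    ((hzat x hx).fderiv_right (m := 1) (by exact_mod_cast (by omega : 2 ≤ k))).differentiableAt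
      (by norm_num)
  have hfd2 : ∀ x ∈ closedBall (0 : Pl) 2,
      DifferentiableAt ℝ (iteratedFDeriv ℝ 2 (zOf s G e)) x := fun x hx =>
    ((hzat x hx).iteratedFDeriv_right (m := 1) (i := 2)
      (by exact_mod_cast (by omega : 1 + 2 ≤ k))).differentiableAt (by norm_num)
  have hnorm : ∀ x ∈ closedBall (0 : Pl) 2, ‖x‖ ≤ 2 := fun x hx => by
    simpa using hx
  have hone : ∀ x ∈ closedBall (0 : Pl) 2, ‖fderiv ℝ (zOf s G e) x‖ ≤ 2 * M := by
    intro x hx
    have h := hcv.norm_image_sub_le_of_norm_fderiv_le (C := M) hfd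
      (fun y hy => by
        rw [← norm_iteratedFDeriv_one, norm_iteratedFDeriv_fderiv]
        exact (hhigh y hy 2 le_rfl (by omega)).trans (hMle 2)) h0 hx
    rw [hz1, sub_zero, sub_zero] at h
    exact h.trans (by rw [mul_comm 2 M]; exact mul_le_mul_of_nonneg_left (hnorm x hx) (by linarith))
  refine ⟨fun x hx j hj => ?_, fun x hx => ?_⟩
  · rcases Nat.lt_or_ge j 2 with hlt | hge
    · interval_cases j
      · have h := hcv.norm_image_sub_le_of_norm_fderiv_le (C := 2 * M)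
          (fun y hy => (hzat y hy).differentiableAt (by exact_mod_cast (by omega : k ≠ 0))) hone h0 hx
        have hzero : zOf s G e 0 = 0 := by simp [zOf, hG0]
        rw [hzero, sub_zero, sub_zero] at h
        rw [norm_iteratedFDeriv_zero]
        have := mul_le_mul_of_nonneg_left (hnorm x hx) (by linarith : (0:ℝ) ≤ 2 * M)
        linarith
      · rw [norm_iteratedFDeriv_one]
        linarith [hone x hx]
    · linarith [(hhigh x hx j hge (by omega)).trans (hMle j)]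
  · have h := hcv.norm_image_sub_le_of_norm_fderiv_le (C := M * s) hfd2
      (fun y hy => by
        rw [norm_fderiv_iteratedFDeriv]
        simpa using hhigh y hy 3 (by norm_num) (by omega)) h0 hx
    rw [sub_zero] at h
    have h2 : ‖iteratedFDeriv ℝ 2 (zOf s G e) x - iteratedFDeriv ℝ 2 (zOf s G e) 0‖ ≤ 2 * (M * s) :=
      h.trans (by rw [mul_comm 2 (M * s)]; exact mul_le_mul_of_nonneg_left (hnorm x hx) (by positivity))
    have key : ∀ u : Pl, ‖u‖ = 1 → dd u (dd u (zOf s G e)) 0 - 2 * (M * s)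
        ≤ dd u (dd u (zOf s G e)) x := by
      intro u hu
      have h3 := ContinuousMultilinearMap.le_of_opNorm_le h2 ![u, u]
      simp only [Fin.prod_univ_two, Matrix.cons_val_zero, Matrix.cons_val_one, hu, mul_one] at h3
      have h2k : ((2 : ℕ) : WithTop ℕ∞) ≤ (k : ℕ) := by exact_mod_cast (by omega : 2 ≤ k)
      rw [sub_apply, Real.norm_eq_abs,
        ← dd_dd_eq ((hzat x hx).of_le h2k), ← dd_dd_eq ((hzat 0 h0).of_le h2k)] at h3
      linarith [(abs_le.1 h3).1]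
    have hl : a0 ≤ dd ex (dd ex (zOf s G e)) 0 + dd ey (dd ey (zOf s G e)) 0 := hlap
    linarith [key ex norm_ex, key ey norm_ey]

lemma exists_height (hgauss : GaussSpec) {k : ℕ} (hk : 8 ≤ k) {s β M a0 : ℝ} (hs : 0 < s)
    (hs1 : s ≤ 1) (hβ : 0 ≤ β) (hM : 1 ≤ M) (hsM : 8 * M * s ≤ a0) (hsM2 : 16 * M * s ≤ 1)
    {π : Pert} (hπ : PertOK π) {G : Pl → R3} {e : R3} (hsol : IslandSol k s β M a0 π G e) :
    ∃ z : Pl → ℝ, Height s β (4 * M) (a0 / 2) z ∧
      ∀ x ∈ ball (0 : Pl) 2, z =ᶠ[𝓝 x] zOf s G e := by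
  obtain ⟨hbz, hlz⟩ := height_bounds hk hs hs1 hM hsol
  obtain ⟨hG, hiso, -, -, he, -⟩ := hsol
  let bump : ContDiffBump (0 : Pl) := ⟨2, 5 / 2, by norm_num, by norm_num⟩
  have hdisc : IsOpen (disc 4) := by
    show IsOpen {x : Pl | nsq x < 4 ^ 2}
    exact isOpen_lt (by unfold nsq; fun_prop) continuous_const
  set z : Pl → ℝ := fun x => bump x * zOf s G e x with hz
  have hzc : ContDiff ℝ (k : ℕ) z := by
    refine contDiff_iff_contDiffAt.2 fun x => ?_
    by_cases hx : x ∈ tsupport bump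
    · rw [bump.tsupport_eq] at hx
      have hxd : x ∈ disc 4 := closedBall_subset_disc (by norm_num : 2 * (5 / 2 : ℝ) ^ 2 < 16) hx
      exact bump.contDiffAt.mul ((((hG x hxd).contDiffAt (hdisc.mem_nhds hxd)).inner ℝ
        contDiffAt_const).div_const s)
    · refine (contDiffAt_const (c := (0 : ℝ))).congr_of_eventuallyEq ?_
      filter_upwards [(isClosed_tsupport bump).isOpen_compl.mem_nhds hx] with y hy
      simp [hz, image_eq_zero_of_notMem_tsupport hy]
  have heq : ∀ x ∈ ball (0 : Pl) 2, z =ᶠ[𝓝 x] zOf s G e := fun x hx => by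
    filter_upwards [isOpen_ball.mem_nhds hx] with y hy
    simp [hz, bump.one_of_mem_closedBall (ball_subset_closedBall hy)]
  have hann : ∀ x ∈ ann (13 / 10) (56 / 25), x ∈ ball (0 : Pl) 2 ∧ x ∈ Om := fun x hx =>
    ⟨mem_ball_of_rsq_lt (by linarith [hx.2]), ⟨by linarith [hx.1], by linarith [hx.2]⟩⟩
  have hd1 : ∀ x ∈ ball (0 : Pl) 2, ∀ u, dd u z x = dd u (zOf s G e) x := fun x hx u =>
    dd_congr (heq x hx) u
  have hd2 : ∀ x ∈ ball (0 : Pl) 2, ∀ u v, dd u (dd v z) x = dd u (dd v (zOf s G e)) x :=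
    fun x hx u v => dd_congr (Filter.eventually_of_mem (isOpen_ball.mem_nhds hx)
      fun y hy => hd1 y hy v) u
  have hflat : ∀ x ∈ ann (13 / 10) (56 / 25),
      s ^ 2 * (dd ex z x * dd ex z x + dd ey z x * dd ey z x) ≤ 1 / 2 := by
    intro x hx
    have h := hbz x (ball_subset_closedBall (hann x hx).1) 1 (by norm_num)
    rw [norm_iteratedFDeriv_one] at h
    have hb : ∀ u : Pl, ‖u‖ = 1 → |dd u z x * dd u z x| ≤ 4 * M * (4 * M) := fun u hu => by
      have h' : |dd u z x| ≤ 4 * M := by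
        rw [hd1 x (hann x hx).1]
        exact (abs_dd_le _ _ hu).trans h
      exact abs_mul_le' h' h'
    have h3 : (4 * M * s) * (4 * M * s) ≤ 1 / 4 * (1 / 4) :=
      mul_self_le_mul_self (by positivity) (by linarith)
    have h4 := mul_le_mul_of_nonneg_left
      (add_le_add (abs_le.1 (hb ex norm_ex)).2 (abs_le.1 (hb ey norm_ey)).2) (sq_nonneg s)
    linarith
  refine ⟨z, ⟨hzc.of_le (by exact_mod_cast hk), fun j hj x hx => ?_, fun x hx => ?_,
    fun x hx => ?_, hflat⟩, heq⟩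
  · rw [((heq x (hann x hx).1).iteratedFDeriv ℝ j).eq_of_nhds]
    exact hbz x (ball_subset_closedBall (hann x hx).1) j hj
  · obtain ⟨hxb, hxO⟩ := hann x hx
    have hsub : Om ⊆ disc 4 := fun y hy => by
      show nsq y < 4 ^ 2
      rw [nsq_eq_rsq]
      linarith [hy.2]
    have hdetpos : ∀ y ∈ Om, 0 < (islandMet s β π).det y := fun y hy => by
      rw [(islandMet_facts hs.ne' hβ hπ hy (zOf s G e)).1]
      have := one_le_phi (s := s) hβ hy.2.le
      positivity
    obtain ⟨n, a, b, c, -, hn⟩ := hgauss (islandMet s β π) Om G (isOpen_oann _ _)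
      ((hG.mono hsub).of_le (by exact_mod_cast (by omega : 3 ≤ k)))
      (fun q hq => hiso q (hsub hq)) hdetpos
    obtain ⟨-, -, -, hac, hh⟩ := hn x hxO
    obtain ⟨e11, e12, e22, et⟩ := hh s e hs.ne'
    obtain ⟨-, fr, fg, g11, g12, g22⟩ := islandMet_facts hs.ne' hβ hπ hxO (zOf s G e)
    rw [g11] at e11
    rw [g12] at e12
    rw [g22] at e22
    simp only [hd1 x hxb, hd2 x hxb]
    rw [e11, e12, e22, ← fr, ← fg, ← hac]
    rw [he, one_pow] at et
    have et' : 1 - s ^ 2 * (islandMet s β π).gradSq (zOf s G e) x = ⟪n x, e⟫ ^ 2 := by linarith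
    rw [et']
    field_simp
  · obtain ⟨hxb, -⟩ := hann x hx
    simp only [hd2 x hxb]
    linarith [hlz x (ball_subset_closedBall hxb)]

end Vale.Agent.P229.Annulus
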