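import Vale.Agent.P229.Annulus.Pair

/-!
# P229 annulus module: `AnnulusCodeSpec`
-/

open scoped ContDiff
open Filter Topology Metric

namespace Vale.Agent.P229

open Annulus in
theorem annulusCode (hgauss : GaussSpec) {k : ℕ} (hk : 8 ≤ k) : AnnulusCodeSpec k := by
  intro M a0 ha0
  obtain ⟨M1, hMM1, hM1⟩ : ∃ M1 : ℝ, M ≤ M1 ∧ 1 ≤ M1 := ⟨max M 1, le_max_left _ _, le_max_right _ _⟩
  refine ⟨min (1 / (16 * M1)) (a0 / (8 * M1)),
    lt_min (by positivity) (div_pos ha0 (by positivity)), fun s hs hs0 => ?_⟩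
  have hs16 : 16 * M1 * s ≤ 1 := by
    have := (le_div_iff₀ (by positivity)).1 (hs0.trans (min_le_left _ _))
    linarith
  have hs8 : 8 * M1 * s ≤ a0 := by
    have := (le_div_iff₀ (by positivity)).1 (hs0.trans (min_le_right _ _))
    linarith
  have hs1 : s ≤ 1 := by
    have : s * 1 ≤ s * (16 * M1) := mul_le_mul_of_nonneg_left (by linarith) hs.le
    linarith
  refine ⟨1, one_pos, fun β hβ _ => ?_⟩
  obtain ⟨lam, Lam, hlam, hLam, hsolves⟩ :=
    exists_solves (s := s) (M := 4 * M1) hβ (half_pos ha0) (by linarith)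
  obtain ⟨C0, hC0, hcode⟩ := code_bound hlam hLam (M := 4 * M1) (by linarith)
  obtain ⟨C1, hC1, hsmall⟩ := annulus_small (M := 8 * M1) (by linarith)
  refine ⟨max C0 (2 * (C0 + 1) * C1), fun L hL => ?_⟩
  obtain ⟨K, code, hlt, hlog, hclose⟩ := hcode L hL
  refine ⟨K, code, hlt, hlog.trans ?_, ?_⟩
  · have hL1 : (1 : ℝ) ≤ L := by exact_mod_cast hL
    exact mul_le_mul (le_max_left _ _) (pow_le_pow_right₀ hL1 (by norm_num)) (by positivity)
      (le_trans hC0.le (le_max_left _ _))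
  intro π π' G G' e e' hπ hπ' hsol hsol' hcd j hj x hx
  have up : ∀ (π : Pert) (G : Pl → R3) (e : R3), IslandSol k s β M a0 π G e →
      IslandSol k s β M1 a0 π G e := fun _ _ _ ⟨h1, h2, h3, h4, h5⟩ =>
    ⟨h1, h2, h3, fun i hi hik y hy => (h4 i hi hik y hy).trans
      (mul_le_mul_of_nonneg_right hMM1 (by positivity)), h5⟩
  obtain ⟨z, hz, hze⟩ := exists_height hgauss hk hs hs1 hβ.le hM1 hs8 hs16 hπ (up _ _ _ hsol)
  obtain ⟨z', hz', hze'⟩ := exists_height hgauss hk hs hs1 hβ.le hM1 hs8 hs16 hπ' (up _ _ _ hsol')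
  set w : Pl → ℝ := fun y => z y - z' y with hw
  have hwc : ContDiff ℝ (8 : ℕ) w := hz.smooth.sub hz'.smooth
  have hball : ∀ y ∈ ann (13 / 10) (56 / 25), y ∈ ball (0 : Pl) 2 := fun y hy =>
    mem_ball_of_rsq_lt (by linarith [hy.2])
  have hev : ∀ y ∈ ball (0 : Pl) 2, w =ᶠ[𝓝 y] fun v => zOf s G e v - zOf s G' e' v := fun y hy => by
    filter_upwards [hze y hy, hze' y hy] with v h1 h2
    simp [hw, h1, h2]
  have hval : ∀ (u : Pl → ℝ) (u0 : Pl → ℝ), Height s β (4 * M1) (a0 / 2) u →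
      (∀ y ∈ ball (0 : Pl) 2, u =ᶠ[𝓝 y] u0) → ∀ y ∈ ann (13 / 10) (56 / 25), |u0 y| ≤ 4 * M1 := by
    intro u u0 hu hue y hy
    rw [← (hue y (hball y hy)).eq_of_nhds, ← Real.norm_eq_abs, ← norm_iteratedFDeriv_zero (𝕜 := ℝ)]
    exact hu.bd 0 (by norm_num) y hy
  have hwsmall := hclose _ _ w (hwc.of_le (by norm_num))
    (fun y hy => (hev y (hball y hy)).eq_of_nhds) (hval z _ hz hze) (hval z' _ hz' hze')
    (hsolves z z' hz hz') hcd
  set c : ℝ := 1 / (C0 + 1) with hc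
  have hc0 : 0 < c := by rw [hc]; positivity
  have hc1 : c ≤ 1 := by rw [hc, div_le_one (by linarith)]; linarith
  set τ : ℝ := (1 / 2) ^ (L / 256) with hτ
  have hτL : ((1 : ℝ) / 2) ^ L ≤ τ ^ 256 := by
    rw [hτ, ← pow_mul]
    exact pow_le_pow_of_le_one (by norm_num) (by norm_num) (Nat.div_mul_le_self L 256)
  have hsub : ∀ y ∈ ann (67 / 50) (11 / 5), y ∈ ann (13 / 10) (56 / 25) := fun y hy =>
    ⟨by linarith [hy.1], by linarith [hy.2]⟩
  have hfin := hsmall (fun y => c • w y) τ (by positivity) (pow_le_one₀ (by norm_num) (by norm_num))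
    (hwc.const_smul c)
    (fun i hi y hy => by
      rw [iteratedFDeriv_const_smul_apply' (hwc.of_le (by exact_mod_cast hi)).contDiffAt, norm_smul,
        Real.norm_eq_abs, abs_of_pos hc0, hw, fun_iteratedFDeriv_sub_apply
          (hz.smooth.of_le (by exact_mod_cast hi)).contDiffAt
          (hz'.smooth.of_le (by exact_mod_cast hi)).contDiffAt]
      refine (mul_le_of_le_one_left (norm_nonneg _) hc1).trans ((norm_sub_le _ _).trans ?_)
      linarith [hz.bd i hi y (hsub y hy), hz'.bd i hi y (hsub y hy)])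
    (fun y hy => by
      rw [smul_eq_mul, abs_mul, abs_of_pos hc0]
      calc c * |w y| ≤ c * (C0 * (1 / 2) ^ L) := mul_le_mul_of_nonneg_left (hwsmall y hy) hc0.le
        _ = C0 / (C0 + 1) * (1 / 2) ^ L := by rw [hc]; ring
        _ ≤ 1 * (1 / 2) ^ L := mul_le_mul_of_nonneg_right
            ((div_le_one (by linarith)).2 (by linarith)) (by positivity)
        _ ≤ τ ^ 256 := by rw [one_mul]; exact hτL)
    j (by omega) x ?_
  · rw [iteratedFDeriv_const_smul_apply' (hwc.of_le (by exact_mod_cast (by omega : j ≤ 8))).contDiffAt,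
      norm_smul, Real.norm_eq_abs, abs_of_pos hc0] at hfin
    have hxb : x ∈ ball (0 : Pl) 2 := mem_ball_of_rsq_lt (by
      have h2 := hx.2
      rw [nsq_eq_rsq] at h2
      linarith)
    rw [← ((hev x hxb).iteratedFDeriv ℝ j).eq_of_nhds]
    have h1 : ‖iteratedFDeriv ℝ j w x‖ ≤ (C0 + 1) * (C1 * τ) := by
      rw [hc, div_mul_eq_mul_div, one_mul, div_le_iff₀ (by linarith)] at hfin
      linarith
    have h2 : τ ≤ 2 * (2 : ℝ) ^ (-(L : ℝ) / 512) := by
      rw [hτ, one_div, inv_pow, ← Real.rpow_natCast, ← Real.rpow_neg (by norm_num : (0:ℝ) ≤ 2)]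
      calc (2 : ℝ) ^ (-((L / 256 : ℕ) : ℝ)) ≤ (2 : ℝ) ^ (1 + -(L : ℝ) / 512) :=
            Real.rpow_le_rpow_of_exponent_le (by norm_num) (by
              have hd : (L : ℝ) < 256 * ((L / 256 : ℕ) : ℝ) + 256 := by
                exact_mod_cast (by omega : L < 256 * (L / 256) + 256)
              have hL0 : (0 : ℝ) ≤ L := Nat.cast_nonneg L
              linarith)
        _ = 2 * (2 : ℝ) ^ (-(L : ℝ) / 512) := by rw [Real.rpow_add (by norm_num), Real.rpow_one]
    calc ‖iteratedFDeriv ℝ j w x‖ ≤ (C0 + 1) * (C1 * (2 * (2 : ℝ) ^ (-(L : ℝ) / 512))) :=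
          h1.trans (mul_le_mul_of_nonneg_left (mul_le_mul_of_nonneg_left h2 hC1.le) (by linarith))
      _ = 2 * (C0 + 1) * C1 * (2 : ℝ) ^ (-(L : ℝ) / 512) := by ring
      _ ≤ _ := mul_le_mul_of_nonneg_right (le_max_right _ _) (by positivity)
  · obtain ⟨h1, h2⟩ := hx
    rw [nsq_eq_rsq] at h1 h2
    norm_num at h1 h2
    exact ⟨h1, h2⟩

end Vale.Agent.P229
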