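import Vale.Agent.P229.Annulus.Height

/-!
# P229 annulus module: the difference of two heights solves an elliptic equation
-/

open scoped ContDiff
open Filter Topology

namespace Vale.Agent.P229.Annulus

lemma Tame.mono {A B : ℝ} {f : Pl → ℝ} {p : Pl} (h : Tame A f p) (hAB : A ≤ B) : Tame B f p :=
  ⟨h.1, h.2.1.trans hAB, h.2.2.1.trans hAB, h.2.2.2.trans hAB⟩

lemma Tame.add {A B : ℝ} {f g : Pl → ℝ} {p : Pl} (hf : Tame A f p) (hg : Tame B g p) :
    Tame (A + B) (fun x => f x + g x) p := by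
  obtain ⟨df, f0, f1, f2⟩ := hf
  obtain ⟨dg, g0, g1, g2⟩ := hg
  refine ⟨df.add dg, (abs_add_le _ _).trans (add_le_add f0 g0), ?_, ?_⟩
  · rw [dd_add df dg]
    exact (abs_add_le _ _).trans (add_le_add f1 g1)
  · rw [dd_add df dg]
    exact (abs_add_le _ _).trans (add_le_add f2 g2)

lemma Tame.mul {A B : ℝ} {f g : Pl → ℝ} {p : Pl} (hf : Tame A f p) (hg : Tame B g p) :
    Tame (2 * (A * B)) (fun x => f x * g x) p := by
  obtain ⟨df, f0, f1, f2⟩ := hf
  obtain ⟨dg, g0, g1, g2⟩ := hg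
  have hAB : 0 ≤ A * B := (abs_nonneg _).trans (abs_mul_le' f0 g0)
  refine ⟨df.mul dg, by linarith [abs_mul_le' f0 g0], ?_, ?_⟩
  · rw [dd_mul df dg]
    linarith [abs_add_le (dd ex f p * g p) (f p * dd ex g p), abs_mul_le' f1 g0, abs_mul_le' f0 g1]
  · rw [dd_mul df dg]
    linarith [abs_add_le (dd ey f p * g p) (f p * dd ey g p), abs_mul_le' f2 g0, abs_mul_le' f0 g2]

lemma Tame.cmul {A : ℝ} {f : Pl → ℝ} {p : Pl} (hf : Tame A f p) (c : ℝ) :
    Tame (|c| * A) (fun x => c * f x) p := by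
  obtain ⟨df, f0, f1, f2⟩ := hf
  refine ⟨df.const_mul c, ?_, ?_, ?_⟩
  · rw [abs_mul]; exact mul_le_mul_of_nonneg_left f0 (abs_nonneg c)
  · rw [dd_const_mul df, abs_mul]; exact mul_le_mul_of_nonneg_left f1 (abs_nonneg c)
  · rw [dd_const_mul df, abs_mul]; exact mul_le_mul_of_nonneg_left f2 (abs_nonneg c)

lemma exists_tame {f : Pl → ℝ} (hf : ContDiffOn ℝ 1 f Om) :
    ∃ B, ∀ x ∈ ann (13 / 10) (56 / 25), Tame B f x := by
  have hO : IsOpen Om := isOpen_oann _ _
  have hsub : ann (13 / 10) (56 / 25) ⊆ Om := fun x hx =>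
    ⟨by linarith [hx.1], by linarith [hx.2]⟩
  have hd : ∀ u : Pl, ContinuousOn (dd u f) (ann (13 / 10) (56 / 25)) := fun u =>
    ((hf.continuousOn_fderiv_of_isOpen hO le_rfl).mono hsub).clm_apply continuousOn_const
  obtain ⟨B0, h0⟩ := (isCompact_ann (13 / 10) (56 / 25)).exists_bound_of_continuousOn
    (hf.continuousOn.mono hsub)
  obtain ⟨B1, h1⟩ := (isCompact_ann (13 / 10) (56 / 25)).exists_bound_of_continuousOn (hd ex)
  obtain ⟨B2, h2⟩ := (isCompact_ann (13 / 10) (56 / 25)).exists_bound_of_continuousOn (hd ey)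
  refine ⟨max B0 (max B1 B2), fun x hx => ⟨(hf x (hsub hx)).contDiffAt (hO.mem_nhds (hsub hx))
    |>.differentiableAt one_ne_zero, (h0 x hx).trans (le_max_left _ _),
    (h1 x hx).trans ((le_max_left _ _).trans (le_max_right _ _)),
    (h2 x hx).trans ((le_max_right _ _).trans (le_max_right _ _))⟩⟩

lemma tame_dd {M : ℝ} {z : Pl → ℝ} (hz : ContDiff ℝ (8 : ℕ) z) {x : Pl}
    (hb : ∀ j ≤ 8, ‖iteratedFDeriv ℝ j z x‖ ≤ M) {u v : Pl} (hu : ‖u‖ = 1) (hv : ‖v‖ = 1) :
    Tame M (dd u z) x ∧ Tame M (dd u (dd v z)) x := by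
  have c1 : ContDiff ℝ (7 : ℕ) (dd u z) := dd_contDiff (n := 7) hz u
  have cv : ContDiff ℝ (7 : ℕ) (dd v z) := dd_contDiff (n := 7) hz v
  have c2 : ContDiff ℝ (6 : ℕ) (dd u (dd v z)) := dd_contDiff (n := 6) cv u
  have h0 : |dd u z x| ≤ M :=
    (abs_dd_le _ _ hu).trans (by simpa using hb 1 (by norm_num))
  have h1 : ∀ a : Pl, ‖a‖ = 1 → ∀ b : Pl, ‖b‖ = 1 → |dd b (dd a z) x| ≤ M := by
    intro a ha b hb'
    refine (abs_dd_le _ _ hb').trans ?_
    rw [← norm_iteratedFDeriv_one]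
    exact (norm_iteratedFDeriv_dd (n := 1) (hz.of_le (by norm_num)) ha x).trans (hb 2 (by norm_num))
  have h2 : ∀ b : Pl, ‖b‖ = 1 → |dd b (dd u (dd v z)) x| ≤ M := by
    intro b hb'
    refine (abs_dd_le _ _ hb').trans ?_
    rw [← norm_iteratedFDeriv_one]
    refine (norm_iteratedFDeriv_dd (n := 1) (cv.of_le (by norm_num)) hu x).trans ?_
    exact (norm_iteratedFDeriv_dd (n := 2) (hz.of_le (by norm_num)) hv x).trans (hb 3 (by norm_num))
  exact ⟨⟨c1.differentiable (by norm_num) x, h0, h1 u hu ex norm_ex, h1 u hu ey norm_ey⟩,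
    ⟨c2.differentiable (by norm_num) x, h1 v hv u hu, h2 ex norm_ex, h2 ey norm_ey⟩⟩

/-- covariant Hessian entries -/
noncomputable def H11 (s β : ℝ) (z : Pl → ℝ) (x : Pl) : ℝ :=
  dd ex (dd ex z) x + ((-1) * (ga s β x * dd ex z x) + gb s β x * dd ey z x)

noncomputable def H12 (s β : ℝ) (z : Pl → ℝ) (x : Pl) : ℝ :=
  dd ex (dd ey z) x + ((-1) * (gb s β x * dd ex z x) + (-1) * (ga s β x * dd ey z x))

noncomputable def H22 (s β : ℝ) (z : Pl → ℝ) (x : Pl) : ℝ :=
  dd ey (dd ey z) x + (ga s β x * dd ex z x + (-1) * (gb s β x * dd ey z x))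

/-- the factor in front of the first derivatives on the right-hand side -/
noncomputable def rr (s β : ℝ) (x : Pl) : ℝ := f0 s β x * s ^ 2 / phi s β x

/-- cofactor entries of the average -/
noncomputable def A11 (s β : ℝ) (z z' : Pl → ℝ) (x : Pl) : ℝ :=
  (1 / 2) * (H22 s β z x + H22 s β z' x)

noncomputable def A12 (s β : ℝ) (z z' : Pl → ℝ) (x : Pl) : ℝ :=
  (-1 / 2) * (H12 s β z x + H12 s β z' x)

noncomputable def A22 (s β : ℝ) (z z' : Pl → ℝ) (x : Pl) : ℝ :=
  (1 / 2) * (H11 s β z x + H11 s β z' x)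

noncomputable def B1 (s β : ℝ) (z z' : Pl → ℝ) (x : Pl) : ℝ :=
  ((-1) * (ga s β x * A11 s β z z' x) + (-2) * (gb s β x * A12 s β z z' x))
    + (ga s β x * A22 s β z z' x + rr s β x * (dd ex z x + dd ex z' x))

noncomputable def B2 (s β : ℝ) (z z' : Pl → ℝ) (x : Pl) : ℝ :=
  (gb s β x * A11 s β z z' x + (-2) * (ga s β x * A12 s β z z' x))
    + ((-1) * (gb s β x * A22 s β z z' x) + rr s β x * (dd ey z x + dd ey z' x))

lemma form_lower {p q r d T v1 v2 : ℝ} (hd : 0 ≤ d) (hdet : d ≤ p * r - q ^ 2) (hT : p + r ≤ T)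
    (htr : 0 < p + r) :
    d / T * (v1 ^ 2 + v2 ^ 2) ≤ r * v1 ^ 2 + 2 * (-q) * v1 * v2 + p * v2 ^ 2 := by
  have hv : 0 ≤ v1 ^ 2 + v2 ^ 2 := add_nonneg (sq_nonneg _) (sq_nonneg _)
  have e : (r * v1 ^ 2 + 2 * (-q) * v1 * v2 + p * v2 ^ 2) * (p + r)
      = (p * r - q ^ 2) * (v1 ^ 2 + v2 ^ 2) + ((r * v1 - q * v2) ^ 2 + (p * v2 - q * v1) ^ 2) := by
    ring
  have h1 : d * (v1 ^ 2 + v2 ^ 2) ≤ (r * v1 ^ 2 + 2 * (-q) * v1 * v2 + p * v2 ^ 2) * (p + r) := by
    rw [e]
    linarith [mul_le_mul_of_nonneg_right hdet hv, sq_nonneg (r * v1 - q * v2),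
      sq_nonneg (p * v2 - q * v1)]
  have hpos : 0 ≤ r * v1 ^ 2 + 2 * (-q) * v1 * v2 + p * v2 ^ 2 :=
    nonneg_of_mul_nonneg_left ((mul_nonneg hd hv).trans h1) htr
  rw [div_mul_eq_mul_div, div_le_iff₀ (htr.trans_le hT)]
  exact h1.trans (mul_le_mul_of_nonneg_left hT hpos)

/-- Fixed `s, β`: heights differ by a solution of a uniformly elliptic equation. -/
theorem exists_solves {s β M a0 : ℝ} (hβ : 0 < β) (ha0 : 0 < a0) (hM : 1 ≤ M) :
    ∃ lam Lam : ℝ, 0 < lam ∧ 1 ≤ Lam ∧ ∀ z z' : Pl → ℝ, Height s β M a0 z → Height s β M a0 z' →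
      SolvesOn lam Lam (fun x => z x - z' x) (oann (13 / 10) (56 / 25)) := by
  have hOphi : ∀ x ∈ Om, phi s β x ≠ 0 := fun x hx => by
    linarith [one_le_phi (s := s) hβ.le hx.2.le]
  have cphi : ContDiff ℝ (2 : ℕ) (phi s β) := contDiff_phi s β
  have cpp : ∀ u, ContDiff ℝ (1 : ℕ) (dd u pp) := fun u => dd_contDiff contDiff_pp u
  have cphi1 : ContDiff ℝ 1 (phi s β) := contDiff_phi s β
  have c2phi : ContDiff ℝ 1 fun x => 2 * phi s β x := contDiff_const.mul cphi1
  have ca : ContDiffOn ℝ 1 (ga s β) Om := by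
    show ContDiffOn ℝ 1 (fun x => dd ex (phi s β) x / (2 * phi s β x)) Om
    exact ((dd_contDiff (n := 1) cphi ex).contDiffOn).div c2phi.contDiffOn
      fun x hx => mul_ne_zero two_ne_zero (hOphi x hx)
  have cb : ContDiffOn ℝ 1 (gb s β) Om := by
    show ContDiffOn ℝ 1 (fun x => dd ey (phi s β) x / (2 * phi s β x)) Om
    exact ((dd_contDiff (n := 1) cphi ey).contDiffOn).div c2phi.contDiffOn
      fun x hx => mul_ne_zero two_ne_zero (hOphi x hx)
  have cf : ContDiffOn ℝ 1 (f0 s β) Om := by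
    show ContDiffOn ℝ 1 (fun x => β * (rsq x - 1) + 2 * s ^ 2 * β ^ 2 *
      (dd ex pp x * dd ex pp x + dd ey pp x * dd ey pp x) / phi s β x) Om
    exact (contDiff_const.mul (contDiff_rsq.sub contDiff_const)).contDiffOn.add
      ((contDiff_const.mul (((cpp ex).mul (cpp ex)).add ((cpp ey).mul (cpp ey)))).contDiffOn.div
        cphi1.contDiffOn hOphi)
  have cr : ContDiffOn ℝ 1 (rr s β) Om := by
    show ContDiffOn ℝ 1 (fun x => f0 s β x * s ^ 2 / phi s β x) Om
    exact (cf.mul contDiffOn_const).div cphi1.contDiffOn hOphi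
  obtain ⟨Ba, hBa⟩ := exists_tame ca
  obtain ⟨Bb, hBb⟩ := exists_tame cb
  obtain ⟨Br, hBr⟩ := exists_tame cr
  set P : ℝ := max (max Ba Bb) (max Br 1) with hP
  have hP1 : 1 ≤ P := (le_max_right _ _).trans (le_max_right _ _)
  refine ⟨β / 10 / (2 * M), 200 * P ^ 2 * M, by positivity, ?_, fun z z' hz hz' => ?_⟩
  · have h1 : 1 ≤ P ^ 2 := one_le_pow₀ hP1
    nlinarith
  refine ⟨A11 s β z z', A12 s β z z', A22 s β z z', B1 s β z z', B2 s β z z', fun x hx => ?_⟩
  have hxa : x ∈ ann (13 / 10) (56 / 25) := ⟨hx.1.le, hx.2.le⟩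
  have tga : Tame P (ga s β) x := (hBa x hxa).mono ((le_max_left _ _).trans (le_max_left _ _))
  have tgb : Tame P (gb s β) x := (hBb x hxa).mono ((le_max_right _ _).trans (le_max_left _ _))
  have tr : Tame P (rr s β) x := (hBr x hxa).mono ((le_max_left _ _).trans (le_max_right _ _))
  have hM0 : 0 ≤ M := by linarith
  have hPM : 0 ≤ P * M := mul_nonneg (by linarith) hM0
  have hMPM : M ≤ P * M := le_mul_of_one_le_left hM0 hP1
  have tH : ∀ y : Pl → ℝ, Height s β M a0 y → Tame (5 * (P * M)) (H11 s β y) x ∧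
      Tame (5 * (P * M)) (H12 s β y) x ∧ Tame (5 * (P * M)) (H22 s β y) x := by
    intro y hy
    have t1 := (tame_dd hy.smooth (fun j hj => hy.bd j hj x hxa) norm_ex norm_ex).1
    have t2 := (tame_dd hy.smooth (fun j hj => hy.bd j hj x hxa) norm_ey norm_ey).1
    have t11 := (tame_dd hy.smooth (fun j hj => hy.bd j hj x hxa) norm_ex norm_ex).2
    have t12 := (tame_dd hy.smooth (fun j hj => hy.bd j hj x hxa) norm_ex norm_ey).2
    have t22 := (tame_dd hy.smooth (fun j hj => hy.bd j hj x hxa) norm_ey norm_ey).2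
    refine ⟨(t11.add (((tga.mul t1).cmul (-1)).add (tgb.mul t2))).mono ?_,
      (t12.add (((tgb.mul t1).cmul (-1)).add ((tga.mul t2).cmul (-1)))).mono ?_,
      (t22.add ((tga.mul t1).add ((tgb.mul t2).cmul (-1)))).mono ?_⟩ <;>
    · simp only [abs_neg, abs_one, one_mul]
      linarith
  obtain ⟨u11, u12, u22⟩ := tH z hz
  obtain ⟨u11', u12', u22'⟩ := tH z' hz'
  have tA11 : Tame (5 * (P * M)) (A11 s β z z') x := ((u22.add u22').cmul (1 / 2)).mono
    (by rw [abs_of_pos (by norm_num : (0:ℝ) < 1 / 2)]; linarith)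
  have tA12 : Tame (5 * (P * M)) (A12 s β z z') x := ((u12.add u12').cmul (-1 / 2)).mono
    (by rw [abs_of_neg (by norm_num : (-1:ℝ) / 2 < 0)]; linarith)
  have tA22 : Tame (5 * (P * M)) (A22 s β z z') x := ((u11.add u11').cmul (1 / 2)).mono
    (by rw [abs_of_pos (by norm_num : (0:ℝ) < 1 / 2)]; linarith)
  have t1 := (tame_dd hz.smooth (fun j hj => hz.bd j hj x hxa) norm_ex norm_ex).1
  have t2 := (tame_dd hz.smooth (fun j hj => hz.bd j hj x hxa) norm_ey norm_ey).1
  have t1' := (tame_dd hz'.smooth (fun j hj => hz'.bd j hj x hxa) norm_ex norm_ex).1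
  have t2' := (tame_dd hz'.smooth (fun j hj => hz'.bd j hj x hxa) norm_ey norm_ey).1
  have hP2 : 5 * (P * M) ≤ 200 * P ^ 2 * M := by
    have : P * M * 1 ≤ P * M * P := mul_le_mul_of_nonneg_left hP1 hPM
    nlinarith
  have hbig : ∀ t : ℝ, t ≤ 60 * (P * (P * M)) → t ≤ 200 * P ^ 2 * M := fun t ht => by
    have : 0 ≤ P * (P * M) := mul_nonneg (by linarith) hPM
    linarith
  refine ⟨tA11.mono hP2, tA12.mono hP2, tA22.mono hP2, ?_, ?_, ?_, ?_⟩
  · refine ((((tga.mul tA11).cmul (-1)).add ((tgb.mul tA12).cmul (-2))).add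
      ((tga.mul tA22).add (tr.mul (t1.add t1')))).mono (hbig _ ?_)
    simp only [abs_neg, abs_one, abs_two, one_mul]
    have : P * M ≤ P * (P * M) := le_mul_of_one_le_left hPM hP1
    linarith
  · refine (((tgb.mul tA11).add ((tga.mul tA12).cmul (-2))).add
      (((tgb.mul tA22).cmul (-1)).add (tr.mul (t2.add t2')))).mono (hbig _ ?_)
    simp only [abs_neg, abs_one, abs_two, one_mul]
    have : P * M ≤ P * (P * M) := le_mul_of_one_le_left hPM hP1
    linarith
  · intro v1 v2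
    have one : ∀ y : Pl → ℝ, Height s β M a0 y →
        β / 10 ≤ H11 s β y x * H22 s β y x - H12 s β y x ^ 2 ∧
        H11 s β y x + H22 s β y x ≤ 2 * M ∧ 0 < H11 s β y x + H22 s β y x := by
      intro y hy
      have hsum : H11 s β y x + H22 s β y x = dd ex (dd ex y) x + dd ey (dd ey y) x := by
        simp only [H11, H22]
        ring
      refine ⟨?_, ?_, ?_⟩
      · have he := hy.eqn x hxa
        have hφ := one_le_phi (s := s) hβ.le (x := x) (by linarith [hx.2])
        have hf := f0_lower (s := s) hβ.le (x := x) (by linarith [hx.2])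
        have hflat := hy.flat x hxa
        have hq : s ^ 2 * ((dd ex y x * dd ex y x + dd ey y x * dd ey y x) / phi s β x) ≤ 1 / 2 :=
          le_trans (mul_le_mul_of_nonneg_left (div_le_self
            (add_nonneg (mul_self_nonneg _) (mul_self_nonneg _)) hφ) (sq_nonneg s)) hflat
        have hβq : β * (3 / 10) ≤ β * (rsq x - 1) :=
          mul_le_mul_of_nonneg_left (by linarith [hx.1]) hβ.le
        have h4 : β * (3 / 10) * (1 / 2) ≤ f0 s β x *
            (1 - s ^ 2 * ((dd ex y x * dd ex y x + dd ey y x * dd ey y x) / phi s β x)) :=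
          mul_le_mul (hβq.trans hf) (by linarith) (by norm_num) (le_trans (by positivity) (hβq.trans hf))
        have e1 : H11 s β y x
            = dd ex (dd ex y) x - ga s β x * dd ex y x + gb s β x * dd ey y x := by
          simp only [H11]
          ring
        have e2 : H22 s β y x
            = dd ey (dd ey y) x + ga s β x * dd ex y x - gb s β x * dd ey y x := by
          simp only [H22]
          ring
        have e3 : H12 s β y x
            = dd ex (dd ey y) x - gb s β x * dd ex y x - ga s β x * dd ey y x := by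
          simp only [H12]
          ring
        rw [e1, e2, e3]
        linarith
      · rw [hsum]
        linarith [(abs_le.1 (tame_dd hy.smooth (fun j hj => hy.bd j hj x hxa) norm_ex norm_ex).2.2.1).2,
          (abs_le.1 (tame_dd hy.smooth (fun j hj => hy.bd j hj x hxa) norm_ey norm_ey).2.2.1).2]
      · rw [hsum]
        linarith [hy.lap x hxa]
    obtain ⟨d1, T1, p1⟩ := one z hz
    obtain ⟨d2, T2, p2⟩ := one z' hz'
    have f1 := form_lower (v1 := v1) (v2 := v2) (by positivity : (0:ℝ) ≤ β / 10) d1 T1 p1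
    have f2 := form_lower (v1 := v1) (v2 := v2) (by positivity : (0:ℝ) ≤ β / 10) d2 T2 p2
    simp only [A11, A12, A22]
    linarith
  · have hw : ∀ u : Pl, dd u (fun y => z y - z' y) = fun y => dd u z y - dd u z' y := by
      intro u
      funext y
      simp only [dd]
      rw [fderiv_fun_sub (hz.smooth.differentiable (by norm_num) y)
        (hz'.smooth.differentiable (by norm_num) y)]
      rfl
    have hw2 : ∀ u v : Pl, dd v (dd u (fun y => z y - z' y)) x
        = dd v (dd u z) x - dd v (dd u z') x := by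
      intro u v
      rw [hw u]
      have h := fderiv_fun_sub (𝕜 := ℝ)
        ((dd_contDiff (n := 7) hz.smooth u).differentiable (by norm_num) x)
        ((dd_contDiff (n := 7) hz'.smooth u).differentiable (by norm_num) x)
      exact congrArg (fun T => T v) h
    have c0 : dd ey (dd ex z) x = dd ex (dd ey z) x := dd_comm (hz.smooth.of_le (by norm_num)) _ _ _
    have c0' : dd ey (dd ex z') x = dd ex (dd ey z') x :=
      dd_comm (hz'.smooth.of_le (by norm_num)) _ _ _
    rw [hw2, hw2, hw2, c0, c0', hw ex, hw ey]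
    have e := hz.eqn x hxa
    have e' := hz'.eqn x hxa
    simp only [B1, B2, A11, A12, A22, H11, H12, H22, rr]
    linear_combination e - e'

end Vale.Agent.P229.Annulus
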