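import Vale.Agent.P229.Spec
import Vale.Agent.P229.Annulus.Bernstein

/-!
# P229 annulus module: the island metric on the annulus

Outside the support of the perturbation the island metric is `φ I`, `φ = 1 + 2 s² β ψ`, so all its
Christoffel symbols are `± φ_i / (2 φ)` and `rcur / s²` is `β (|x|² - 1) + 2 s² β² |Dψ|² / φ`.
-/

open scoped ContDiff
open Filter Topology

namespace Vale.Agent.P229.Annulus

/-- the polynomial that `psi` equals for `|x|² < 5` -/
noncomputable def pp (x : Pl) : ℝ := rsq x / 4 - rsq x * rsq x / 16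

/-- conformal factor -/
noncomputable def phi (s β : ℝ) (x : Pl) : ℝ := 1 + 2 * (s ^ 2 * β) * pp x

/-- Christoffel symbol `φ₁ / 2φ` -/
noncomputable def ga (s β : ℝ) (x : Pl) : ℝ := dd ex (phi s β) x / (2 * phi s β x)

/-- Christoffel symbol `φ₂ / 2φ` -/
noncomputable def gb (s β : ℝ) (x : Pl) : ℝ := dd ey (phi s β) x / (2 * phi s β x)

/-- curvature over `s²` -/
noncomputable def f0 (s β : ℝ) (x : Pl) : ℝ :=
  β * (rsq x - 1)
    + 2 * s ^ 2 * β ^ 2 * (dd ex pp x * dd ex pp x + dd ey pp x * dd ey pp x) / phi s β x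

lemma d1_eq_dd (f : Pl → ℝ) : d1 f = dd ex f := rfl

lemma d2_eq_dd (f : Pl → ℝ) : d2 f = dd ey f := rfl

lemma nsq_eq_rsq (x : Pl) : nsq x = rsq x := rfl

lemma contDiff_pp {n : ℕ∞} : ContDiff ℝ n pp :=
  (contDiff_rsq.div_const _).sub ((contDiff_rsq.mul contDiff_rsq).div_const _)

lemma contDiff_phi {n : ℕ∞} (s β : ℝ) : ContDiff ℝ n (phi s β) :=
  contDiff_const.add (contDiff_const.mul contDiff_pp)

lemma dd_phi (s β : ℝ) (u x : Pl) : dd u (phi s β) x = 2 * (s ^ 2 * β) * dd u pp x := by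
  have hd : DifferentiableAt ℝ pp x := (contDiff_pp (n := 1)).differentiable one_ne_zero x
  show dd u (fun y => 1 + 2 * (s ^ 2 * β) * pp y) x = _
  rw [dd_add (differentiableAt_const _) (hd.const_mul _), dd_const, dd_const_mul hd, zero_add]

lemma dd_dd_phi (s β : ℝ) (v u x : Pl) :
    dd v (dd u (phi s β)) x = 2 * (s ^ 2 * β) * dd v (dd u pp) x := by
  rw [show dd u (phi s β) = fun y => 2 * (s ^ 2 * β) * dd u pp y from
    funext fun y => dd_phi s β u y]
  exact dd_const_mul ((dd_contDiff (n := 1) (contDiff_pp (n := (2 : ℕ))) u).differentiable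
    (by norm_num) x) _ v

lemma lap_pp (x : Pl) : dd ex (dd ex pp) x + dd ey (dd ey pp) x = 1 - rsq x := by
  have hr : ∀ y, DifferentiableAt ℝ rsq y := fun y =>
    (contDiff_rsq (n := 1)).differentiable one_ne_zero y
  have hc : ∀ (c d : ℝ) y, DifferentiableAt ℝ (fun z => c + d * rsq z) y := fun c d y =>
    (differentiableAt_const c).add ((hr y).const_mul d)
  have hdr : ∀ u y, DifferentiableAt ℝ (dd u rsq) y := fun u y =>
    (dd_contDiff (n := 1) (contDiff_rsq (n := (2 : ℕ))) u).differentiable (by norm_num) y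
  have h1 : ∀ u, dd u pp = fun y => dd u rsq y * (1 / 4 - rsq y / 8) := by
    intro u
    funext y
    show dd u (fun y => rsq y / 4 - rsq y * rsq y / 16) y = _
    have e : (fun y => rsq y / 4 - rsq y * rsq y / 16)
        = fun y => rsq y * (1 / 4 + (-(1 / 16)) * rsq y) := by funext y; ring
    rw [e, dd_mul (hr y) (hc _ _ y),
      dd_add (differentiableAt_const _) ((hr y).const_mul _), dd_const, dd_const_mul (hr y)]
    ring
  have h2 : ∀ u v, dd v (dd u pp) x
      = dd v (dd u rsq) x * (1 / 4 - rsq x / 8) - dd u rsq x * dd v rsq x / 8 := by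
    intro u v
    have e : (fun y => dd u rsq y * (1 / 4 - rsq y / 8))
        = fun y => dd u rsq y * (1 / 4 + (-(1 / 8)) * rsq y) := by funext y; ring
    rw [h1 u, e, dd_mul (hdr u x) (hc _ _ x),
      dd_add (differentiableAt_const _) ((hr x).const_mul _), dd_const, dd_const_mul (hr x)]
    ring
  rw [h2, h2, dd_dd_rsq, dd_dd_rsq, dd_rsq, dd_rsq]
  simp only [ex, ey, rsq]
  ring

lemma pp_nonneg {x : Pl} (hx : rsq x ≤ 4) : 0 ≤ pp x := by
  have h0 : 0 ≤ rsq x := add_nonneg (sq_nonneg _) (sq_nonneg _)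
  have : 0 ≤ rsq x * (4 - rsq x) := mul_nonneg h0 (by linarith)
  unfold pp
  linarith

lemma one_le_phi {s β : ℝ} (hβ : 0 ≤ β) {x : Pl} (hx : rsq x ≤ 4) : 1 ≤ phi s β x := by
  have : 0 ≤ 2 * (s ^ 2 * β) * pp x := mul_nonneg (by positivity) (pp_nonneg hx)
  unfold phi
  linarith

lemma f0_lower {s β : ℝ} (hβ : 0 ≤ β) {x : Pl} (hx : rsq x ≤ 4) :
    β * (rsq x - 1) ≤ f0 s β x := by
  have h1 := one_le_phi (s := s) hβ hx
  have : 0 ≤ 2 * s ^ 2 * β ^ 2 * (dd ex pp x * dd ex pp x + dd ey pp x * dd ey pp x) / phi s β x :=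
    div_nonneg (mul_nonneg (by positivity) (add_nonneg (mul_self_nonneg _) (mul_self_nonneg _)))
      (by linarith)
  unfold f0
  linarith

/-- the region where every island metric is the radial one -/
def Om : Set Pl := oann (63 / 50) 4

lemma isOpen_oann (a b : ℝ) : IsOpen (oann a b) :=
  (isOpen_lt continuous_const continuous_rsq).inter (isOpen_lt continuous_rsq continuous_const)

lemma psi_eq {x : Pl} (hx : rsq x ≤ 5) : psi x = pp x := by
  unfold psi pp
  rw [nsq_eq_rsq, Real.smoothTransition.one_of_one_le (by linarith)]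
  ring

lemma islandMet_eventually {s β : ℝ} {π : Pert} (hπ : PertOK π) {x : Pl} (hx : x ∈ Om) :
    (islandMet s β π).e =ᶠ[𝓝 x] phi s β ∧ (islandMet s β π).f =ᶠ[𝓝 x] (fun _ => 0) ∧
      (islandMet s β π).g =ᶠ[𝓝 x] phi s β := by
  have hz : ∀ i, ∀ y ∈ Om, π i y = 0 := by
    intro i y hy
    refine image_eq_zero_of_notMem_tsupport fun hmem => ?_
    have h := (hπ i).2 hmem
    have h1 : rsq y < (28 / 25 : ℝ) ^ 2 := h
    have h2 : 63 / 50 < rsq y := hy.1
    norm_num at h1
    linarith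
  have hev : ∀ᶠ y in 𝓝 x, y ∈ Om := (isOpen_oann _ _).mem_nhds hx
  refine ⟨?_, ?_, ?_⟩ <;> filter_upwards [hev] with y hy
  · simp only [islandMet, hz 0 y hy, psi_eq (by linarith [hy.2] : rsq y ≤ 5), phi]
    ring
  · simp [islandMet, hz 1 y hy]
  · simp only [islandMet, hz 2 y hy, psi_eq (by linarith [hy.2] : rsq y ≤ 5), phi]
    ring

/-- The island metric at a point of the annulus. -/
lemma islandMet_facts {s β : ℝ} (hs : s ≠ 0) (hβ : 0 ≤ β) {π : Pert} (hπ : PertOK π) {x : Pl}
    (hx : x ∈ Om) (z : Pl → ℝ) :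
    (islandMet s β π).det x = phi s β x * phi s β x ∧
    (islandMet s β π).rcur x / s ^ 2 = f0 s β x ∧
    (islandMet s β π).gradSq z x = (dd ex z x * dd ex z x + dd ey z x * dd ey z x) / phi s β x ∧
    (islandMet s β π).h11 z x
      = dd ex (dd ex z) x - ga s β x * dd ex z x + gb s β x * dd ey z x ∧
    (islandMet s β π).h12 z x
      = dd ex (dd ey z) x - gb s β x * dd ex z x - ga s β x * dd ey z x ∧
    (islandMet s β π).h22 z x
      = dd ey (dd ey z) x + ga s β x * dd ex z x - gb s β x * dd ey z x := by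
  set m := islandMet s β π with hm
  have hev : ∀ᶠ y in 𝓝 x, y ∈ Om := (isOpen_oann _ _).mem_nhds hx
  obtain ⟨he, hf, hg⟩ := islandMet_eventually (s := s) (β := β) hπ hx
  have h1e : d1 m.e x = dd ex (phi s β) x := dd_congr he ex
  have h2e : d2 m.e x = dd ey (phi s β) x := dd_congr he ey
  have h1g : d1 m.g x = dd ex (phi s β) x := dd_congr hg ex
  have h2g : d2 m.g x = dd ey (phi s β) x := dd_congr hg ey
  have h1f : d1 m.f x = 0 := (dd_congr hf ex).trans (dd_const _ _ _)
  have h2f : d2 m.f x = 0 := (dd_congr hf ey).trans (dd_const _ _ _)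
  have h22e : d2 (d2 m.e) x = dd ey (dd ey (phi s β)) x :=
    dd_congr (hev.mono fun y hy => dd_congr (islandMet_eventually hπ hy).1 ey) ey
  have h11g : d1 (d1 m.g) x = dd ex (dd ex (phi s β)) x :=
    dd_congr (hev.mono fun y hy => dd_congr (islandMet_eventually hπ hy).2.2 ex) ex
  have h12f : d1 (d2 m.f) x = 0 :=
    (dd_congr (g := fun _ => (0 : ℝ)) (hev.mono fun y hy =>
      (dd_congr (islandMet_eventually hπ hy).2.1 ey).trans (dd_const _ _ _)) ex).trans
      (dd_const _ _ _)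
  have hφ : phi s β x ≠ 0 := by
    have h2 : rsq x < 4 := hx.2
    linarith [one_le_phi (s := s) hβ h2.le]
  have e0 : m.e x = phi s β x := he.eq_of_nhds
  have f00 : m.f x = 0 := hf.eq_of_nhds
  have g0 : m.g x = phi s β x := hg.eq_of_nhds
  have hdet : m.det x = phi s β x * phi s β x := by
    simp only [Met.det, e0, f00, g0]
    ring
  refine ⟨hdet, ?_, ?_, ?_, ?_, ?_⟩
  · simp only [Met.rcur, Met.c111, Met.c112, Met.c211, Met.c212, Met.c122, Met.c222, h1e, h2e,
      h1g, h2g, h1f, h2f, h22e, h11g, h12f, e0, f00, g0, hdet, f0, dd_phi, dd_dd_phi]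
    have hL : dd ey (dd ey pp) x = 1 - rsq x - dd ex (dd ex pp) x := by linarith [lap_pp x]
    rw [hL]
    field_simp
    ring
  · simp only [Met.gradSq, d1_eq_dd, d2_eq_dd, e0, f00, g0, hdet]
    field_simp
    ring
  all_goals
    simp only [Met.h11, Met.h12, Met.h22, Met.c111, Met.c112, Met.c211, Met.c212, Met.c122,
      Met.c222, ga, gb, h1e, h2e, h1g, h2g, h1f, h2f, e0, f00, g0, hdet, d1_eq_dd, d2_eq_dd]
    field_simp
    ring

end Vale.Agent.P229.Annulus
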